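import Vale.Agent.P241.H125.UBRat
import Vale.Agent.P241.H891.Cyclic

/-!
# P241, block UB-7: `F4Stmt`
-/

open Vale.Agent.P251.St Vale.Agent.P251.St.SHCat Vale.Agent.P241.St Vale.Agent.P241.Final

namespace Vale.Agent.P241.H125

/-- `F4Stmt`, for all heights `n ≥ 0`. -/
theorem f4Stmt {T : SHCat} {S : Susp T} (X : Ctx S) (p : ℕ) [Fact p.Prime] :
    H891.F4Stmt X p :=
  fun _ hK n _ _ _ fY hB hZ => f4 X hK n fY hB hZ

end Vale.Agent.P241.H125
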