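import Vale.Agent.P241.H125.UBLaz

/-!
# P241, block UB-K, part 9: the uniform bound on `MU / p ^ e`

`exists_bound` : for every `k` there is an integer `M ≠ 0` which kills the kernel and the cokernel
of `π_k (MU / p ^ e) ⟶ π_k (H ⊗ MU / p ^ e)` for all `e`.
-/

open CategoryTheory MonoidalCategory Limits Pretriangulated MonObj

set_option linter.unusedSectionVars false

universe v u

namespace Vale.Agent.P241.H125

open Vale.Agent.P251.T Vale.Agent.P251.S Vale.Agent.P251.M Vale.Agent.P251.X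
open Vale.Agent.P251.Z Vale.Agent.P251.F Vale.Agent.P251.I Vale.Agent.P093.N0
open Vale.Agent.P251 Vale.Agent.P241.KP EvenSpheres

attribute [local instance] HComm.commRing

variable {T : Type u} [Category.{v} T] [Preadditive T] [HasZeroObject T]
    [HasShift T ℤ] [∀ n : ℤ, (shiftFunctor T n).Additive] [Pretriangulated T] [IsTriangulated T]
    [MonoidalCategory T] [SymmetricCategory T] [TensorTriangulated T] [MonoidalClosed T]
    [HasCoproducts.{0} T] [HasProducts.{0} T] [StableCat T]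

/-- The homotopy has no `p`-torsion. -/
def PTF (p : ℕ) (X : T) : Prop :=
  ∀ (k : ℤ) (x : (𝟙_ T)⟦k⟧ ⟶ X), (p : ℤ) • x = 0 → x = 0

theorem PTF.pow {p : ℕ} {X : T} (h : PTF p X) (e : ℕ) {k : ℤ} {x : (𝟙_ T)⟦k⟧ ⟶ X}
    (hx : ((p : ℤ) ^ e) • x = 0) : x = 0 := by
  induction e with
  | zero => simpa using hx
  | succ e ih =>
    apply ih
    apply h
    rwa [smul_smul, ← pow_succ']

theorem PTF.shift {p : ℕ} {X : T} (h : PTF p X) : PTF p (X⟦(1 : ℤ)⟧) := by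
  intro k x hx
  let e : ((𝟙_ T)⟦k - 1⟧)⟦(1 : ℤ)⟧ ≅ (𝟙_ T)⟦k⟧ :=
    ((shiftFunctorAdd' T (k - 1) 1 k (by ring)).app _).symm
  obtain ⟨y, hy⟩ := (shiftFunctor T (1 : ℤ)).map_surjective (e.hom ≫ x)
  have h1 : (p : ℤ) • y = 0 := by
    apply (shiftFunctor T (1 : ℤ)).map_injective
    rw [Functor.map_zsmul, hy, ← Preadditive.comp_zsmul, hx, comp_zero, Functor.map_zero]
  rw [← cancel_epi e.hom, comp_zero, ← hy, h _ _ h1, Functor.map_zero]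

/-- `X ⟶ H ⊗ X` -/
def jH (H X : T) [MonObj H] : X ⟶ H ⊗ X := (λ_ X).inv ≫ η[H] ▷ X

theorem jH_natural (H : T) [MonObj H] {X Y : T} (f : X ⟶ Y) : f ≫ jH H Y = jH H X ≫ H ◁ f := by
  unfold jH
  rw [Category.assoc, ← whisker_exchange, ← leftUnitor_inv_naturality_assoc]

section abs

variable {R H : T} [MonObj H] {p : ℕ}

/-- the passage to `R / p ^ e` -/
theorem bound_aux (hR : PTF p R) (hHR : PTF p (H ⊗ R)) {e : ℕ} {k : ℤ} {M : ℤ}
    (hker : ∀ (x : (𝟙_ T)⟦k⟧ ⟶ R) (y : (𝟙_ T)⟦k⟧ ⟶ H ⊗ R), x ≫ jH H R = ((p : ℤ) ^ e) • y →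
      ∃ x', M • x = ((p : ℤ) ^ e) • x')
    (hcok : ∀ y : (𝟙_ T)⟦k⟧ ⟶ H ⊗ R, ∃ x, M • y = x ≫ jH H R)
    {C : T} {q : R ⟶ C} {δ : C ⟶ R⟦(1 : ℤ)⟧}
    (hC : Triangle.mk (((p : ℤ) ^ e) • 𝟙 R) q δ ∈ distTriang T) :
    (∀ x : (𝟙_ T)⟦k⟧ ⟶ C, x ≫ jH H C = 0 → M • x = 0) ∧
      ∀ y : (𝟙_ T)⟦k⟧ ⟶ H ⊗ C, ∃ x, M • y = x ≫ jH H C := by
  have hq : (((p : ℤ) ^ e) • 𝟙 R) ≫ q = 0 := comp_distTriang_mor_zero₁₂ _ hC
  have hH := TensorTriangulated.distinguished H _ hC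
  have hf : H ◁ (((p : ℤ) ^ e) • 𝟙 R) = ((p : ℤ) ^ e) • 𝟙 (H ⊗ R) := by
    rw [whiskerLeft_zsmul', whiskerLeft_id]
  constructor
  · intro x hx
    have h1 : (x ≫ δ) = 0 := by
      refine hR.shift.pow e ?_
      have h2 : δ ≫ (((p : ℤ) ^ e) • 𝟙 R)⟦(1 : ℤ)⟧' = 0 := comp_distTriang_mor_zero₃₁ _ hC
      rw [Functor.map_zsmul, CategoryTheory.Functor.map_id, Preadditive.comp_zsmul,
        Category.comp_id] at h2
      rw [← Preadditive.comp_zsmul, h2, comp_zero]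
    obtain ⟨x', rfl⟩ : ∃ x' : (𝟙_ T)⟦k⟧ ⟶ R, x = x' ≫ q := Triangle.coyoneda_exact₃ _ hC x h1
    have h2 : (x' ≫ jH H R) ≫ H ◁ q = 0 := by
      rw [Category.assoc, ← jH_natural, ← Category.assoc, hx]
    obtain ⟨y, hy⟩ : ∃ y : (𝟙_ T)⟦k⟧ ⟶ H ⊗ R,
        x' ≫ jH H R = y ≫ H ◁ (((p : ℤ) ^ e) • 𝟙 R) := Triangle.coyoneda_exact₂ _ hH _ h2
    rw [hf, Preadditive.comp_zsmul, Category.comp_id] at hy
    obtain ⟨x'', hx''⟩ := hker x' y hy
    rw [← Preadditive.zsmul_comp, hx'', Preadditive.zsmul_comp]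
    have h3 : x'' ≫ (((p : ℤ) ^ e) • 𝟙 R) ≫ q = 0 := by rw [hq, comp_zero]
    rwa [Preadditive.zsmul_comp, Category.id_comp, Preadditive.comp_zsmul] at h3
  · intro y
    let d : H ⊗ C ⟶ (H ⊗ R)⟦(1 : ℤ)⟧ := (H ◁ δ) ≫ (H ◁ (TensorTriangulated.e R).inv) ≫
        (α_ H R ((𝟙_ T)⟦(1 : ℤ)⟧)).inv ≫ (TensorTriangulated.e (H ⊗ R)).hom
    have hH' : Triangle.mk (H ◁ (((p : ℤ) ^ e) • 𝟙 R)) (H ◁ q) d ∈ distTriang T := hH
    have h1 : y ≫ d = 0 := by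
      refine hHR.shift.pow e ?_
      have h2 : d ≫ (H ◁ (((p : ℤ) ^ e) • 𝟙 R))⟦(1 : ℤ)⟧' = 0 :=
        comp_distTriang_mor_zero₃₁ _ hH'
      rw [hf, Functor.map_zsmul, CategoryTheory.Functor.map_id, Preadditive.comp_zsmul,
        Category.comp_id] at h2
      rw [← Preadditive.comp_zsmul, h2, comp_zero]
    obtain ⟨y', rfl⟩ : ∃ y' : (𝟙_ T)⟦k⟧ ⟶ H ⊗ R, y = y' ≫ H ◁ q :=
      Triangle.coyoneda_exact₃ _ hH' y h1
    obtain ⟨x, hx⟩ := hcok y'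
    refine ⟨x ≫ q, ?_⟩
    rw [Category.assoc, jH_natural, ← Category.assoc, ← hx, Preadditive.zsmul_comp]

end abs

section MU

variable {D : MUData T} (HA : MUAll D) {p : ℕ} [Fact p.Prime]

/-- `MU ⟶ MU P` is split injective -/
theorem exists_retr (D : MUData T) : ∃ (i : D.R ⟶ D.P) (r : D.P ⟶ D.R), i ≫ r = 𝟙 _ := by
  refine ⟨(ρ_ D.R).inv ≫ D.R ◁ ((stdEven T).zero.hom ≫ (stdEven T).inPS 0),
    D.R ◁ ((stdEven T).pr 0 ≫ (stdEven T).zero.inv) ≫ (ρ_ D.R).hom, ?_⟩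
  have h1 : ((stdEven T).zero.hom ≫ (stdEven T).inPS 0) ≫
      (stdEven T).pr 0 ≫ (stdEven T).zero.inv = 𝟙 _ := by
    rw [Category.assoc, ← Category.assoc ((stdEven T).inPS 0), (stdEven T).inPS_pr 0 0 rfl,
      EvenSpheres.castIso_refl, Iso.refl_hom, Category.id_comp, Iso.hom_inv_id]
  rw [Category.assoc, ← Category.assoc (D.R ◁ _) (D.R ◁ _), ← whiskerLeft_comp, h1,
    whiskerLeft_id, Category.id_comp, Iso.inv_hom_id]

include HA in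
theorem ptf_R : PTF p D.R := by
  obtain ⟨C, i, δ, hC⟩ := distinguished_cocone_triangle ((p : ℤ) • 𝟙 (𝟙_ T))
  obtain ⟨ii, r, hr⟩ := exists_retr D
  intro k x hx
  have h1 : (p : ℤ) • (x ≫ ii) = 0 := by rw [← Preadditive.zsmul_comp, hx, zero_comp]
  have h2 : x ≫ ii = 0 := by
    rcases Int.even_or_odd k with hk | hk
    · exact P_torsionFree_even HA hC hk _ h1
    · exact P_torsionFree_odd HA hC hk _ h1
  rw [← Category.comp_id x, ← hr, ← Category.assoc, h2, zero_comp]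

include HA in
theorem div_odd_R {k : ℤ} (hk : Odd k) (x : (𝟙_ T)⟦k⟧ ⟶ D.R) :
    ∃ y : (𝟙_ T)⟦k⟧ ⟶ D.R, (p : ℤ) • y = x := by
  obtain ⟨C, i, δ, hC⟩ := distinguished_cocone_triangle ((p : ℤ) • 𝟙 (𝟙_ T))
  obtain ⟨ii, r, hr⟩ := exists_retr D
  obtain ⟨y, hy⟩ := P_divisible_odd HA hC hk (x ≫ ii)
  refine ⟨y ≫ r, ?_⟩
  rw [← Preadditive.zsmul_comp, hy, Category.assoc, hr, Category.comp_id]

include HA in
theorem div_odd_R_pow {k : ℤ} (hk : Odd k) (e : ℕ) (x : (𝟙_ T)⟦k⟧ ⟶ D.R) :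
    ∃ y : (𝟙_ T)⟦k⟧ ⟶ D.R, ((p : ℤ) ^ e) • y = x := by
  induction e generalizing x with
  | zero => exact ⟨x, by simp⟩
  | succ e ih =>
    obtain ⟨y, hy⟩ := div_odd_R HA (p := p) hk x
    obtain ⟨z, hz⟩ := ih y
    exact ⟨z, by rw [pow_succ', mul_smul, hz, hy]⟩

variable {Fs : SpaceFunctor T} {e : Fs.S.obj CCF ≅ (stdEven T).L}
  (hU : MUUniv e D) {H : T} [MonObj H] (k : D.R ⟶ H) [IsMonHom k]
  [HComm (stdEven T) H] [HComm (stdEven T) (H ⊗ D.R)]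
  (hpos : ∀ k : ℤ, k ≠ 0 → ∀ g : (𝟙_ T)⟦k⟧ ⟶ H, g = 0)
  (hint : ∀ f : 𝟙_ T ⟶ H, ∃ m : ℤ, f = m • η[H])
  (hinj : ∀ m : ℤ, m • η[H] = 0 → m = 0)

include hU k hpos in
theorem odd_HR (l : ℤ) (f : (𝟙_ T)⟦2 * l + 1⟧ ⟶ H ⊗ D.R) : f = 0 := by
  obtain ⟨b, -, -⟩ := D.exists_basis_of k hU
  have h1 := b.odd (Iso.refl _) (𝟙_ T) (fun l f => by
    rw [← cancel_mono (ρ_ H).hom, zero_comp]
    exact hpos _ (by omega) _) l (f ≫ (ρ_ _).inv)
  rwa [← cancel_mono (ρ_ (H ⊗ D.R)).inv, zero_comp]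

include hU k hpos hint hinj in
theorem ptf_HR : PTF p (H ⊗ D.R) := by
  intro n x hx
  rcases Int.even_or_odd' n with ⟨m, rfl | rfl⟩
  · rw [← cancel_epi (BD2.sI m).hom, comp_zero]
    set y := (BD2.sI m).hom ≫ x with hy
    have hy0 : (p : ℤ) • y = 0 := by rw [hy, ← Preadditive.comp_zsmul, hx, comp_zero]
    obtain ⟨q, hq⟩ := (thB_bijective hU k hpos hint hinj).2
      (HRing.of (stdEven T) (H ⊗ D.R) m y)
    have h1 : thB k ((p : ℤ) • q) = 0 := by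
      rw [map_zsmul, hq]
      have := (DirectSum.of ((stdEven T).Gr (H ⊗ D.R)) m).map_zsmul (p : ℤ) y
      refine this.symm.trans ?_
      rw [hy0]
      exact map_zero _
    have h2 : (p : ℤ) • q = 0 :=
      (thB_bijective hU k hpos hint hinj).1 (h1.trans (map_zero _).symm)
    have hp0 : (p : ℤ) ≠ 0 := by exact_mod_cast (Fact.out : p.Prime).ne_zero
    have h3 : q = 0 := (smul_eq_zero.1 h2).resolve_left hp0
    rw [h3, map_zero] at hq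
    exact hring_of_injective _ _ _ (hq.symm.trans (map_zero _).symm)
  · exact odd_HR hU k hpos m x

include hU HA k hpos hint hinj in
/-- **The uniform bound.** -/
theorem exists_bound (n : ℤ) : ∃ M : ℤ, M ≠ 0 ∧
    ∀ (a : ℕ) {C : T} {q : D.R ⟶ C} {δ : C ⟶ D.R⟦(1 : ℤ)⟧}
      (_ : Triangle.mk (((p : ℤ) ^ a) • 𝟙 D.R) q δ ∈ distTriang T),
      (∀ x : (𝟙_ T)⟦n⟧ ⟶ C, x ≫ jH H C = 0 → M • x = 0) ∧
        ∀ y : (𝟙_ T)⟦n⟧ ⟶ H ⊗ C, ∃ x, M • y = x ≫ jH H C := by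
  have hR : PTF p D.R := ptf_R HA
  have hHR : PTF p (H ⊗ D.R) := ptf_HR hU k hpos hint hinj
  rcases Int.even_or_odd' n with ⟨m, rfl | rfl⟩
  · obtain ⟨M, hM, h1⟩ := exists_cok hU k hpos hint hinj m
    refine ⟨M, hM, fun a C q δ hC => bound_aux hR hHR ?_ ?_ hC⟩
    · intro x y hxy
      obtain ⟨z, x₀, x₁, hz, hx⟩ := exists_mod_pow HA (p := p) a ((BD2.sI m).hom ≫ x)
      have hxy' : ((BD2.sI m).hom ≫ x) ≫ inrM H D.R = ((p : ℤ) ^ a) • ((BD2.sI m).hom ≫ y) := by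
        rw [Category.assoc, ← Preadditive.comp_zsmul, ← hxy]
        rfl
      obtain ⟨z', x₂, hz', hx₂⟩ := h1 ((BD2.sI m).hom ≫ y - x₁ ≫ inrM H D.R)
      have h2 : x₀ ≫ inrM H D.R =
          ((p : ℤ) ^ a) • ((BD2.sI m).hom ≫ y - x₁ ≫ inrM H D.R) := by
        rw [hx, Preadditive.add_comp, Preadditive.zsmul_comp] at hxy'
        rw [smul_sub, ← hxy', add_sub_cancel_right]
      have h3 : M • x₀ - ((p : ℤ) ^ a) • x₂ = 0 := by
        refine eq_zero_of_inr hU k hpos hint hinj (z := M • z - ((p : ℤ) ^ a) • z') ?_ ?_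
        · rw [map_sub, map_zsmul, map_zsmul, hz, hz']
          have := (DirectSum.of ((stdEven T).Gr D.R) m).map_sub (M • x₀) (((p : ℤ) ^ a) • x₂)
          refine Eq.trans ?_ this.symm
          rw [map_zsmul, map_zsmul]
        · rw [Preadditive.sub_comp, Preadditive.zsmul_comp, Preadditive.zsmul_comp, h2, ← hx₂,
            smul_smul, smul_smul, mul_comm, sub_self]
      refine ⟨(BD2.sI m).inv ≫ (x₂ + M • x₁), ?_⟩
      rw [← cancel_epi (BD2.sI m).hom, Preadditive.comp_zsmul, Preadditive.comp_zsmul,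
        Iso.hom_inv_id_assoc, hx, smul_add, smul_add, sub_eq_zero.1 h3, smul_smul, smul_smul,
        mul_comm M]
    · intro y
      obtain ⟨z, x, -, hx⟩ := h1 ((BD2.sI m).hom ≫ y)
      refine ⟨(BD2.sI m).inv ≫ x, ?_⟩
      rw [← cancel_epi (BD2.sI m).hom, Preadditive.comp_zsmul, hx, Category.assoc,
        Iso.hom_inv_id_assoc]
      rfl
  · refine ⟨1, one_ne_zero, fun a C q δ hC => bound_aux hR hHR ?_ ?_ hC⟩
    · intro x y _
      obtain ⟨x', hx'⟩ := div_odd_R_pow HA (p := p) ⟨m, rfl⟩ a x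
      exact ⟨x', by rw [one_smul, hx']⟩
    · intro y
      exact ⟨0, by rw [odd_HR hU k hpos m y, smul_zero, zero_comp]⟩

end MU

end Vale.Agent.P241.H125
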