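import Vale.Agent.P241.H125.UBZero
import Vale.Agent.P241.H435.KTen

/-!
# P241, block UB-K, part 5: the field property

If `K` is a graded field, `K_* Y ≠ 0` is finite and `W ⊗ Y = 0`, then `K ⊗ W = 0`.
-/

open CategoryTheory MonoidalCategory Limits Pretriangulated MonObj

set_option linter.unusedSectionVars false

universe v u

namespace Vale.Agent.P241.H125

open Vale.Agent.P251.T Vale.Agent.P251.S Vale.Agent.P251.M Vale.Agent.P241.KR

variable {T : Type u} [Category.{v} T] [Preadditive T] [HasZeroObject T]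
    [HasShift T ℤ] [∀ n : ℤ, (shiftFunctor T n).Additive] [Pretriangulated T] [IsTriangulated T]
    [MonoidalCategory T] [SymmetricCategory T] [TensorTriangulated T] [MonoidalClosed T]
    [HasCoproducts.{0} T] [HasProducts.{0} T] [StableCat T]

theorem isZero_retract {A B : T} (s : A ⟶ B) (r : B ⟶ A) (h : s ≫ r = 𝟙 A) (hB : IsZero B) :
    IsZero A := by
  rw [IsZero.iff_id_eq_zero, ← h, hB.eq_of_tgt s 0, zero_comp]

theorem isZero_tensor_left {A : T} (B : T) (hA : IsZero A) : IsZero (A ⊗ B) := by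
  rw [IsZero.iff_id_eq_zero, ← id_whiskerRight, hA.eq_of_src (𝟙 A) 0,
    MonoidalPreadditive.zero_whiskerRight]

theorem isZero_tensor_right {B : T} (A : T) (hB : IsZero B) : IsZero (A ⊗ B) :=
  Functor.map_isZero (tensorLeft A) hB

/-- **The field property.** -/
theorem acyclic_of_kbasis {K : T} [MonObj K] {Y : T} {ι : Type} [Fintype ι] (b : KBasis K Y ι)
    (i : ι) {W : T} (hW : IsZero (W ⊗ Y)) : Acyclic K W := by
  obtain ⟨V, inc, prj, h1, -, -, ⟨α⟩⟩ := b.exists_linIso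
  let f : FM.of (R := K) ((𝟙_ T)⟦b.e i⟧) ⟶ FM.of Y := frM K (inc i) ≫ α.hom
  let g : FM.of (R := K) Y ⟶ FM.of ((𝟙_ T)⟦b.e i⟧) := α.inv ≫ frM K (prj i)
  have hfg : f ≫ g = 𝟙 _ := by
    simp only [f, g, Category.assoc, Iso.hom_inv_id_assoc]
    rw [frM_comp, h1, frM_id]
  let s : K ⊗ (𝟙_ T)⟦b.e i⟧ ⟶ K ⊗ Y := FM.bind (FM.Hom.hom f)
  let r : K ⊗ Y ⟶ K ⊗ (𝟙_ T)⟦b.e i⟧ := FM.bind (FM.Hom.hom g)
  have hsr : s ≫ r = 𝟙 _ := by
    have h2 : FM.Hom.hom f ≫ FM.bind (FM.Hom.hom g) = FM.unit K _ := congrArg FM.Hom.hom hfg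
    simp only [s, r]
    rw [FM.bind_bind, h2, FM.bind_unit]
  have h3 : IsZero ((K ⊗ Y) ⊗ W) :=
    (isZero_tensor_right K hW).of_iso (α_ K Y W ≪≫ whiskerLeftIso K (β_ Y W))
  have h4 : IsZero ((K ⊗ (𝟙_ T)⟦b.e i⟧) ⊗ W) :=
    isZero_retract (s ▷ W) (r ▷ W) (by rw [← comp_whiskerRight, hsr, id_whiskerRight]) h3
  have h5 : IsZero ((K ⊗ W) ⊗ (𝟙_ T)⟦b.e i⟧) :=
    h4.of_iso (α_ K W _ ≪≫ whiskerLeftIso K (β_ W _) ≪≫ (α_ K _ W).symm)
  have h6 : IsZero ((K ⊗ W)⟦b.e i⟧) := h5.of_iso (tensorSph (b.e i) (K ⊗ W)).symm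
  exact ((shiftFunctor T (-b.e i)).map_isZero h6).of_iso
    ((shiftFunctorCompIsoId T (b.e i) (-b.e i) (by ring)).app (K ⊗ W)).symm

/-- The field property, from a graded field `K`. -/
theorem acyclic_of_gfield {K : T} [MonObj K] {Y : T} (hY : HasBas K Y)
    (hne : ¬ Acyclic K Y) {W : T} (hW : IsZero (W ⊗ Y)) : Acyclic K W := by
  obtain ⟨ι, _, ⟨b⟩⟩ := hY
  by_cases hι : IsEmpty ι
  · exfalso
    apply hne
    exact StableCat.generator _ fun n f => b.zero_of_isEmpty n f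
  · rw [not_isEmpty_iff] at hι
    exact acyclic_of_kbasis b hι.some hW

/-- Finite cell spaces have finite bases. -/
theorem hasBas_space {K : T} [MonObj K] {q : ℕ} (h : GField K q)
    (F : Vale.Agent.P251.I.SpaceFunctor T) (X : Vale.Agent.P251.I.FCat) :
    HasBas K (F.S.obj X) := by
  obtain ⟨X, hX⟩ := X
  induction hX with
  | empty => exact HasBas.zero (F.isZero
      (X := ⟨Vale.Agent.P251.G.LC.of Empty, Vale.Agent.P251.G.LC.FC.empty⟩)
      (inferInstanceAs (IsEmpty Empty)))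
  | sph n => exact (HasBas.sphere (n : ℤ)).of_iso (sphIso F n).symm
  | @hequiv X Y hX h ih =>
    obtain ⟨f, g, h1, h2⟩ := h
    have := F.isIso_map (Vale.Agent.P251.I.FCat.hom f :
      (⟨X, hX⟩ : Vale.Agent.P251.I.FCat) ⟶ ⟨Y, hX.hequiv ⟨f, g, h1, h2⟩⟩) ⟨g, h1, h2⟩
    exact ih.of_iso (asIso (F.S.map (Vale.Agent.P251.I.FCat.hom f :
      (⟨X, hX⟩ : Vale.Agent.P251.I.FCat) ⟶ ⟨Y, hX.hequiv ⟨f, g, h1, h2⟩⟩)))
  | @ext A B i hi hA hC ihA ihC =>
    have hB : Vale.Agent.P251.G.LC.FC B := .ext hi hA hC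
    exact HasBas.mid h (F.cof_distinguished (Vale.Agent.P251.I.FCat.hom i :
      (⟨A, hA⟩ : Vale.Agent.P251.I.FCat) ⟶ ⟨B, hB⟩) hi) ihA ihC

end Vale.Agent.P241.H125
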