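import Vale.Agent.P241.H125.UBField
import Vale.Agent.P241.H882.KMapB
import Vale.Agent.P241.H795.Acyc
import Vale.Agent.P241.H795.KStmt
import Vale.Agent.P241.BD2.Field

/-!
# P241, block UB-K, part 6: the instance for `MU`

* `f4_core` : `Blue` and `K(n+1) ⊗ X = 0` imply `K ⊗ Y = 0`, for the fields `K` which detect the
  module of the product trick;
* `f4_pos` : the case of Morava `K`-theories of height `n ≥ 1`.
-/

open CategoryTheory MonoidalCategory Limits Pretriangulated MonObj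

set_option linter.unusedSectionVars false

universe v u

namespace Vale.Agent.P241.H125

open Vale.Agent.P251.T Vale.Agent.P251.S Vale.Agent.P251.M Vale.Agent.P251.Z
open Vale.Agent.P251.F Vale.Agent.P251.I Vale.Agent.P093.N0 Vale.Agent.P093.N2 Vale.Agent.P241.KR
open Vale.Agent.P241.H795 Vale.Agent.P241.KP

attribute [local instance] HComm.commRing

section core

variable {T : Type u} [Category.{v} T] [Preadditive T] [HasZeroObject T]
    [HasShift T ℤ] [∀ n : ℤ, (shiftFunctor T n).Additive] [Pretriangulated T] [IsTriangulated T]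
    [MonoidalCategory T] [SymmetricCategory T] [TensorTriangulated T] [MonoidalClosed T]
    [HasCoproducts.{0} T] [HasProducts.{0} T] [StableCat T]

section abs

variable {P : T} [MonObj P]

theorem scR_zsmul (p : ℤ) (a : 𝟙_ T ⟶ P) : scR P (p • a) = p • scR P a := by
  unfold scR
  rw [MonoidalCategory.tensorHom_def, whiskerLeft_zsmul', Preadditive.comp_zsmul,
    Preadditive.comp_zsmul, ← MonoidalCategory.tensorHom_def]

theorem scL_zsmul (p : ℤ) (a : 𝟙_ T ⟶ P) : scL P (p • a) = p • scL P a := by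
  unfold scL
  rw [MonoidalCategory.tensorHom_def', whiskerRight_zsmul', Preadditive.comp_zsmul,
    Preadditive.comp_zsmul, ← MonoidalCategory.tensorHom_def']

/-- the invariance relation in degree `0` -/
theorem invRel_zero {v : ℕ → (𝟙_ T ⟶ P)} {p : ℤ} (h0 : v 0 = p • η[P]) : InvRel P v 0 := by
  refine ⟨η[P ⊗ P], η[P ⊗ P], fun _ => 0, scMul_one _, ?_⟩
  rw [Finset.sum_range_zero, add_zero, h0, one_scMul, scR_zsmul, scL_zsmul]
  rfl

end abs


variable {D : MUData T} {F : SpaceFunctor T} {e : F.S.obj CCF ≅ (stdEven T).L} (hU : MUUniv e D)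
    (HA : MUAll D) {p : ℕ} [Fact p.Prime]

theorem zsmul_id_eq_zero {K : T} [MonObj K] {c : ℤ} (h : c • η[K] = 0) : c • 𝟙 K = 0 := by
  have h1 : 𝟙 K = (λ_ K).inv ≫ (η[K] ▷ K) ≫ μ[K] := by
    rw [MonObj.one_mul, Iso.inv_hom_id]
  rw [h1, ← Preadditive.comp_zsmul, ← Preadditive.zsmul_comp, ← whiskerRight_zsmul', h]
  simp

theorem not_isZero_of_ne {K : T} [MonObj K] (h : η[K] ≠ 0) : ¬ IsZero K :=
  fun h' => h (h'.eq_of_tgt _ _)

theorem invRel_self (D : MUData T) (p : ℕ) [Fact p.Prime] (n : ℕ) :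
    InvRel D.P (D.vs p) n := by
  have hv := D.invData p (n + 1)
  rcases Nat.eq_zero_or_pos n with rfl | hn
  · exact invRel_zero hv.v0
  · exact hv.inv n hn (by omega)

/-- `K ⊗ η_P` is split injective for `K` under `MU` -/
theorem sm_eta_P {K : T} [MonObj K] (k : D.R ⟶ K) [IsMonHom k] : SM K η[D.P] := by
  have h1 : SM K η[D.R] := by
    refine sm_of_act (K ◁ k ≫ μ[K]) ?_
    rw [← Category.assoc, ← whiskerLeft_comp, IsMonHom.one_hom, MonObj.mul_one]
  have h2 : SM K ((stdEven T).inPS 0) := by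
    refine ⟨K ◁ (stdEven T).pr 0, ?_⟩
    rw [← whiskerLeft_comp, (stdEven T).inPS_pr 0 0 rfl, EvenSpheres.castIso_refl, Iso.refl_hom,
      whiskerLeft_id]
  have h3 : SM K η[(stdEven T).PS] := by
    rw [EvenSpheres.PS_one]
    exact (SM.iso K _).comp h2
  have h4 : η[D.P] = η[D.R] ≫ (ρ_ D.R).inv ≫ D.R ◁ η[(stdEven T).PS] := by
    change (λ_ (𝟙_ T)).inv ≫ (η[D.R] ⊗ₘ η[(stdEven T).PS]) = _
    rw [MonoidalCategory.tensorHom_def, unitors_inv_equal, ← rightUnitor_inv_naturality_assoc]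
  rw [h4]
  exact h1.comp ((SM.iso K _).comp (h3.whiskerLeft D.R))

include hU HA in
theorem acyclic_kos_of_KA {h : ℕ} (hh : h ≠ 0) {K : T} [MonObj K] (hK : KA D p h K)
    (Z : KosData D.P (p : ℤ) h (D.vs p)) {W : T} (hW : Acyclic K W) : Acyclic Z.K W := by
  obtain ⟨C, i, δ, hC⟩ := distinguished_cocone_triangle ((p : ℤ) • 𝟙 (𝟙_ T))
  exact kos_acyclic hU HA hC hK.u hh hK.odd hK.sparse hK.char hK.ne hK.gen hK.vv_lt
    hK.vv_unit Z hW

include hU HA in
/-- **The core**, for the fields `K` which detect the modules of the product trick. -/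
theorem f4_core' {n : ℕ} {K₁ : T} [MonObj K₁] (h₁ : KA D p (n + 1) K₁)
    {X Y : T} (hX : Acyclic K₁ X) (hB : Blue (D.vs p) n X Y) (hY : Dz Y) {K : T}
    (hF : ¬ Acyclic K Y → ∀ W : T, IsZero (W ⊗ Y) → Acyclic K W)
    (hK : ∀ (N : ℕ → T) (M : ∀ Q, ModStr D.P (N Q)) (L : ℕ),
      (∀ Q, ClassM (D.vs p) n L (M Q)) →
      ∀ U₀ : Tel (X := fun _ : ℕ => D.P) (fun _ => (ModStr.self D.P).smul (D.vs p n)),
        Acyclic K ((∏ᶜ N) ⊗ U₀.obj) → IsZero ((∏ᶜ N) ⊗ U₀.obj)) : Acyclic K Y := by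
  obtain ⟨C, i, δ, hC⟩ := distinguished_cocone_triangle ((p : ℤ) • 𝟙 (𝟙_ T))
  obtain ⟨b', -, -⟩ := hU.basis
  obtain ⟨J, f, hf, hf'⟩ := exists_free_of_basis (E := stdEven T) (GBasis.ofAm b')
  have hv := D.invData p (n + 2)
  have h0 := invRel_self D p n
  obtain ⟨Z⟩ := exists_kosData D.P (p : ℤ) (n + 1) (D.vs p)
  have hZ := acyclic_kos_of_KA hU HA (Nat.succ_ne_zero n) h₁ Z hX
  refine acyclic_of_blue' hv h0 (goodReg_P HA hC (n + 2)) f hf hf' (K₁ := K₁)
    (not_isZero_of_ne h₁.ne) (zsmul_id_eq_zero h₁.char) ?_ (sm_eta_P h₁.u) ?_ hB hY hF hK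
  · intro i hi
    have hvu0 : HRing.map (E := stdEven T) h₁.u (vv p (n + 1) D.law) =
        HRing.of (stdEven T) K₁ ((p : ℤ) ^ (n + 1) - 1) (D.vel p (n + 1) ≫ h₁.u) := by
      rw [D.vel_spec p (n + 1)]
      exact HRing.map_of _ _ _
    have hunit := h₁.vv_unit
    rw [hvu0] at hunit
    obtain ⟨w, hw1, hw2⟩ := exists_hinv (D.vel p (n + 1) ≫ h₁.u) hunit
    have L : Lau (stdEven T) p ((p : ℤ) ^ (n + 1) - 1) (D.vel p (n + 1) ≫ h₁.u) w :=
      ⟨hw1, hw2, fun m hm f => h₁.sparse m hm f, h₁.char, h₁.ne, h₁.gen⟩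
    have : HComm (stdEven T) K₁ := L.hcomm
    have : HComm (stdEven T) (K₁ ⊗ D.R) := hcomm_tensor hU h₁.u L
    refine whiskerLeft_vP_zero_A D h₁.u (h := n + 1) (fun j hj => ?_) hi
    unfold lawA
    rw [vv_map]
    exact h₁.vv_lt j hj
  · intro L N M hM
    exact acyclic_of_classM (D.invData p (n + 1)) Z hZ M hM

include hU HA in
/-- **Heights `n ≥ 1`.** -/
theorem f4_pos {n : ℕ} (hn : n ≠ 0) {K K₁ : T} [MonObj K] [MonObj K₁] (h : KA D p n K)
    (h₁ : KA D p (n + 1) K₁) {X Y : T} (hX : Acyclic K₁ X)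
    (hB : Blue (D.vs p) n X Y) (hY : Dz Y) (hYb : HasBas K Y) : Acyclic K Y := by
  refine f4_core' hU HA h₁ hX hB hY (fun hne W hW => acyclic_of_gfield hYb hne hW) ?_
  intro N M L hL U₀ hN
  obtain ⟨Z⟩ := exists_kosData D.P (p : ℤ) n (D.vs p)
  have h2 : Acyclic Z.K ((∏ᶜ N) ⊗ U₀.obj) := acyclic_kos_of_KA hU HA hn h Z hN
  have hMk : ∀ k < n, ((prodM M).sm (D.vs p k)) ^ L = 0 := fun k hk => prodM_pow hL k hk
  have hiso : IsIso (((prodM M).tensorRight U₀.obj).smul (D.vs p n)) :=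
    isIso_a2 _ (D.vs p) n (invRel_self D p n) (fun k hk => ⟨L, hMk k hk⟩) U₀
  exact isZero_of_tensor_K Z ((prodM M).tensorRight U₀.obj) (D.invData p n)
    (Nat.one_le_iff_ne_zero.2 hn)
    (fun k hk => isNilpotent_tensorRight (prodM M) _ _ ⟨L, hMk k hk⟩) hiso
    (IsZero.of_iso h2 (β_ _ Z.K))

end core

section morava

open Vale.Agent.P251.St Vale.Agent.P251.St.SHCat Vale.Agent.P241.St Vale.Agent.P241.Final

variable {T : SHCat} {S : Susp T}

theorem isZero_iff {E W : T.C} : Vale.Agent.P251.St.Acyclic E W ↔ IsZero (E ⊗ W) :=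
  (IsZero.iff_id_eq_zero _).symm

/-- `F4Stmt` of `H891/Cyclic.lean` for the heights `n ≥ 1`. -/
theorem f4_of_pos (X : Ctx S) {p : ℕ} [Fact p.Prime] {K : ℕ → RingA T}
    (hK : ∀ i, IsMoravaK S p i (K i)) {n : ℕ} (hn : n ≠ 0) {Z Y : Space}
    (fY : Vale.Agent.P251.St.FC Y)
    (hB : Blue (P := X.D.P) (X.D.vs p) n (S.obj Z) (S.obj Y))
    (hZ : Vale.Agent.P251.St.Acyclic (K (n + 1)).obj (S.obj Z)) :
    Vale.Agent.P251.St.Acyclic (K n).obj (S.obj Y) := by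
  obtain ⟨h⟩ := nonempty_KA X.muUniv hn (hK n)
  obtain ⟨h₁⟩ := nonempty_KA X.muUniv (Nat.succ_ne_zero n) (hK (n + 1))
  have f : Vale.Agent.P251.G.LC.FC (toLC Y) := (fc_iff Y).1 fY
  rw [isZero_iff] at hZ ⊢
  exact f4_pos X.muUniv X.muAll hn h h₁ hZ hB (Dz.space S.toSpaceFunctor ⟨toLC Y, f⟩)
    (hasBas_space (BD2.KA.gfield h) S.toSpaceFunctor ⟨toLC Y, f⟩)

end morava

end Vale.Agent.P241.H125
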