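import Vale.Agent.P241.H125.UBTors
import Vale.Agent.P241.H882.KMapB
import Vale.Agent.P241.H795.Acyc
import Vale.Agent.P241.BD2.Field
import Vale.Agent.P241.H169.Growth
import Vale.Agent.P251.F.LazWt

/-!
# P241, block UB-K, part 8: `π_* MU ⟶ H_* MU` modulo `p ^ e`, uniformly in `e`

`Laz ⟶ π_* MU ⟶ π_* (H ⊗ MU) = ℤ[b]` is injective and has a finite cokernel in each degree. As
`Laz ⟶ π_* MU` is onto modulo every prime, the kernel and the cokernel of
`π_k (MU / p ^ e) ⟶ π_k (H ⊗ MU / p ^ e)` are killed by an integer which does not depend on `e`.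
-/

open CategoryTheory MonoidalCategory Limits Pretriangulated MonObj

set_option linter.unusedSectionVars false

universe v u

namespace Vale.Agent.P241.H125

open Vale.Agent.P251.T Vale.Agent.P251.S Vale.Agent.P251.M Vale.Agent.P251.X
open Vale.Agent.P251.Z Vale.Agent.P251.F Vale.Agent.P251.I Vale.Agent.P093.N0
open Vale.Agent.P251 Vale.Agent.P241.KP EvenSpheres

attribute [local instance] HComm.commRing

section alg

/-- the polynomials with a non-zero multiple in the image of `Laz` -/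
def ratB : Subring (MvPolynomial ℕ ℤ) where
  carrier := {q | ∃ (m : ℤ) (z : Laz), m ≠ 0 ∧ m • q = Laz.toB z}
  mul_mem' := by
    rintro a b ⟨m, z, hm, h⟩ ⟨m', z', hm', h'⟩
    refine ⟨m * m', z * z', mul_ne_zero hm hm', ?_⟩
    rw [map_mul, ← h, ← h', smul_mul_smul_comm]
  one_mem' := ⟨1, 1, one_ne_zero, by rw [map_one, one_smul]⟩
  add_mem' := by
    rintro a b ⟨m, z, hm, h⟩ ⟨m', z', hm', h'⟩
    refine ⟨m * m', m' • z + m • z', mul_ne_zero hm hm', ?_⟩
    rw [map_add, map_zsmul, map_zsmul, ← h, ← h', smul_add, smul_smul, smul_smul, mul_comm m']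
  zero_mem' := ⟨1, 0, one_ne_zero, by rw [map_zero, smul_zero]⟩
  neg_mem' := by
    rintro a ⟨m, z, hm, h⟩
    exact ⟨m, -z, hm, by rw [map_neg, smul_neg, h]⟩

theorem C_mem_ratB (c : ℤ) : (MvPolynomial.C c : MvPolynomial ℕ ℤ) ∈ ratB := by
  have : (MvPolynomial.C c : MvPolynomial ℕ ℤ) = ((c : ℤ) : MvPolynomial ℕ ℤ) := by simp
  rw [this]
  exact intCast_mem _ c

theorem X_mem_ratB (n : ℕ) : (MvPolynomial.X n : MvPolynomial ℕ ℤ) ∈ ratB := by
  induction n using Nat.strong_induction_on with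
  | _ n ih =>
    have h1 : ∀ q ∈ below ℤ n, q ∈ ratB := by
      intro q hq
      refine Algebra.adjoin_induction (p := fun x _ => x ∈ ratB) ?_ (fun c => C_mem_ratB c)
        (fun x y _ _ hx hy => ratB.add_mem hx hy) (fun x y _ _ hx hy => ratB.mul_mem hx hy) hq
      rintro _ ⟨k, hk, rfl⟩
      exact ih k hk
    have h2 : Laz.toB (Laz.x n) - MvPolynomial.C (dC (n + 2) : ℤ) * MvPolynomial.X n ∈ ratB :=
      h1 _ (Laz.toB_x_sub_mem n)
    have h3 : Laz.toB (Laz.x n) ∈ ratB := ⟨1, Laz.x n, one_ne_zero, one_smul _ _⟩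
    have h4 : MvPolynomial.C (dC (n + 2) : ℤ) * MvPolynomial.X n ∈ ratB := by
      have := ratB.sub_mem h3 h2
      rwa [sub_sub_cancel] at this
    obtain ⟨m, z, hm, h⟩ := h4
    refine ⟨m * (dC (n + 2) : ℤ), z, mul_ne_zero hm ?_, ?_⟩
    · exact_mod_cast (dC_pos (N := n + 2)).ne'
    · rw [← h, mul_smul]
      congr 1
      rw [← MvPolynomial.smul_eq_C_mul]

theorem exists_toB (q : MvPolynomial ℕ ℤ) : ∃ (m : ℤ) (z : Laz), m ≠ 0 ∧ m • q = Laz.toB z := by
  change q ∈ ratB
  induction q using MvPolynomial.induction_on with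
  | C c => exact C_mem_ratB c
  | add p q hp hq => exact ratB.add_mem hp hq
  | mul_X p n hp => exact ratB.mul_mem hp (X_mem_ratB n)

/-- uniformly on the monomials of a finite set -/
theorem exists_toB_finset (F : Finset (ℕ →₀ ℕ)) : ∃ m : ℤ, m ≠ 0 ∧
    ∀ q : MvPolynomial ℕ ℤ, (∀ a ∈ q.support, a ∈ F) → ∃ z : Laz, m • q = Laz.toB z := by
  classical
  choose M z hM hz using fun a : ℕ →₀ ℕ => exists_toB (MvPolynomial.monomial a 1)
  refine ⟨∏ a ∈ F, M a, Finset.prod_ne_zero_iff.2 fun a _ => hM a, fun q hq => ?_⟩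
  have h1 : ∀ a ∈ q.support, ∃ z' : Laz, (∏ a ∈ F, M a) • MvPolynomial.monomial a (q.coeff a) =
      Laz.toB z' := by
    intro a ha
    refine ⟨(q.coeff a * ∏ b ∈ F.erase a, M b) • z a, ?_⟩
    rw [map_zsmul, ← hz, ← Finset.mul_prod_erase F M (hq a ha), smul_smul]
    have h2 : MvPolynomial.monomial a (q.coeff a) =
        q.coeff a • (MvPolynomial.monomial a 1 : MvPolynomial ℕ ℤ) := by
      rw [MvPolynomial.smul_monomial, smul_eq_mul, _root_.mul_one]
    rw [h2, smul_smul]
    congr 1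
    ring
  choose! z' hz' using h1
  refine ⟨∑ a ∈ q.support, z' a, ?_⟩
  conv_lhs => rw [q.as_sum]
  rw [Finset.smul_sum, map_sum]
  exact Finset.sum_congr rfl hz'

/-- two homomorphisms on `Laz` which kill the generators agree -/
theorem laz_hom_ext {A : Type*} [CommRing A] {f g : Laz →+* A} (hf : ∀ n, f (Laz.x n) = 0)
    (hg : ∀ n, g (Laz.x n) = 0) : f = g := by
  have h : f.comp Laz.polyHom = g.comp Laz.polyHom := by
    refine MvPolynomial.ringHom_ext (fun r => ?_) fun n => ?_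
    · rw [RingHom.comp_apply, RingHom.comp_apply]
      have : (Laz.polyHom (MvPolynomial.C r)) = ((r : ℤ) : Laz) := by
        have h1 : (MvPolynomial.C r : MvPolynomial ℕ ℤ) = ((r : ℤ) : MvPolynomial ℕ ℤ) := by simp
        rw [h1, map_intCast]
      rw [this, map_intCast, map_intCast]
    · rw [RingHom.comp_apply, RingHom.comp_apply, Laz.polyHom_X, hf, hg]
  refine RingHom.ext fun x => ?_
  obtain ⟨y, rfl⟩ := Laz.polyHom_surjective x
  exact RingHom.congr_fun h y

theorem xC_addLaw {A : Type*} [CommRing A] (n : ℕ) : xC (F.addLaw A) n = 0 := by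
  unfold xC
  refine Finset.sum_eq_zero fun i hi => ?_
  rw [Finset.mem_Ioo] at hi
  rw [addLaw_ps, map_add]
  have h1 : ∀ j : Fin 2, MvPowerSeries.coeff (e2 i (n + 2 - i))
      (MvPowerSeries.X j : MvPowerSeries (Fin 2) A) = 0 := by
    intro j
    rw [MvPowerSeries.coeff_X, if_neg]
    intro h
    have h2 := congrArg Finsupp.degree h
    rw [degree_e2, Finsupp.degree_single] at h2
    omega
  rw [h1, h1, add_zero, smul_zero]

/-- a law with vanishing generators is additive -/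
theorem eq_addLaw {A : Type*} [CommRing A] (G : Law A)
    (h : ∀ n, xC G n = 0) : G = F.addLaw A := by
  have h1 : ∀ G : Law A, Laz.univ.map (Laz.lift G) = G := fun G => Laz.univ_map_lift G
  rw [← h1 G, ← h1 (F.addLaw A)]
  congr 1
  refine laz_hom_ext (fun n => ?_) fun n => ?_
  · rw [Laz.x, map_xC, h1, h]
  · rw [Laz.x, map_xC, h1, xC_addLaw]

end alg

section hty

variable {T : Type u} [Category.{v} T] [Preadditive T] [HasZeroObject T]
    [HasShift T ℤ] [∀ n : ℤ, (shiftFunctor T n).Additive] [Pretriangulated T] [IsTriangulated T]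
    [MonoidalCategory T] [SymmetricCategory T] [TensorTriangulated T] [MonoidalClosed T]
    [HasCoproducts.{0} T] [HasProducts.{0} T] [StableCat T]

theorem cmp_map {R R' : T} [MonObj R] [MonObj R'] (f : R ⟶ R') [IsMonHom f] (w : ℤ)
    (x : HRing (stdEven T) R) : cmp (stdEven T) R' w (HRing.map (E := stdEven T) f x) =
      HRing.map (E := stdEven T) f (cmp (stdEven T) R w x) := by
  induction x using DirectSum.induction_on with
  | zero => simp
  | add x y hx hy => rw [map_add, map_add, map_add, map_add, hx, hy]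
  | of v a =>
    have h1 : HRing.map (E := stdEven T) f (DirectSum.of ((stdEven T).Gr R) v a) =
      HRing.of (stdEven T) R' v (a ≫ f) := HRing.map_of f v a
    have h2 : DirectSum.of ((stdEven T).Gr R) v a = HRing.of (stdEven T) R v a := rfl
    rw [h1, h2]
    rcases eq_or_ne v w with rfl | hv
    · rw [cmp_of_same, cmp_of_same, HRing.map_of]
    · rw [cmp_of_ne _ _ hv, cmp_of_ne _ _ hv, map_zero]

theorem finite_degU (w : ℤ) : {a : ℕ →₀ ℕ | Cob.degU a = w}.Finite := by
  refine (H169.finite_wt_le w.toNat).subset fun a ha => ?_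
  have h1 : Cob.degU a = (H169.wt a : ℤ) := by
    rw [degU_eq, H169.wt, Finsupp.sum, Finsupp.sum, Nat.cast_sum]
    refine Finset.sum_congr rfl fun i _ => ?_
    push_cast
    ring
  have h2 : Cob.degU a = w := ha
  change H169.wt a ≤ w.toNat
  omega

section H

variable {H : T} [MonObj H]
  (hpos : ∀ k : ℤ, k ≠ 0 → ∀ g : (𝟙_ T)⟦k⟧ ⟶ H, g = 0)
  (hint : ∀ f : 𝟙_ T ⟶ H, ∃ m : ℤ, f = m • η[H])
  (hinj : ∀ m : ℤ, m • η[H] = 0 → m = 0)

include hpos in
theorem posS {m : ℤ} (hm : m ≠ 0) (f : (stdEven T).S m ⟶ H) : f = 0 := by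
  rw [← cancel_epi (BD2.sI m).inv, comp_zero]
  exact hpos _ (by omega) _

theorem int_eq_of (m : ℤ) : (m : HRing (stdEven T) H) =
    HRing.of (stdEven T) H 0 (m • ((stdEven T).zero.inv ≫ η[H])) := by
  have h1 : HRing.of (stdEven T) H 0 (m • ((stdEven T).zero.inv ≫ η[H])) =
      m • HRing.of (stdEven T) H 0 ((stdEven T).zero.inv ≫ η[H]) :=
    (DirectSum.of ((stdEven T).Gr H) 0).map_zsmul m _
  rw [h1, of_one]
  exact (zsmul_one m).symm

include hinj in
theorem int_injective : Function.Injective (Int.castRingHom (HRing (stdEven T) H)) := by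
  rw [injective_iff_map_eq_zero]
  intro m hm
  have h1 : HRing.of (stdEven T) H 0 (m • ((stdEven T).zero.inv ≫ η[H])) = 0 :=
    (int_eq_of m).symm.trans hm
  have h2 := hring_of_injective _ _ _ (h1.trans (map_zero _).symm)
  apply hinj
  rw [← cancel_epi (stdEven T).zero.inv, Preadditive.comp_zsmul, comp_zero]
  exact h2

include hpos hint in
theorem int_surjective : Function.Surjective (Int.castRingHom (HRing (stdEven T) H)) := by
  intro x
  induction x using DirectSum.induction_on with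
  | zero => exact ⟨0, map_zero _⟩
  | add x y hx hy =>
    obtain ⟨a, rfl⟩ := hx
    obtain ⟨b, rfl⟩ := hy
    exact ⟨a + b, map_add _ _ _⟩
  | of w a =>
    rcases eq_or_ne w 0 with rfl | hw
    · obtain ⟨m, hm⟩ := hint ((stdEven T).zero.hom ≫ a)
      refine ⟨m, ?_⟩
      have h1 : a = m • ((stdEven T).zero.inv ≫ η[H]) := by
        rw [← Preadditive.comp_zsmul, ← hm, Iso.inv_hom_id_assoc]
      rw [h1]
      exact int_eq_of m
    · refine ⟨0, ?_⟩
      have h1 : a = 0 := posS hpos hw a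
      rw [map_zero, h1]
      exact (map_zero _).symm

include hpos hint in
theorem hcomm_H : HComm (stdEven T) H := by
  refine ⟨fun x y => ?_⟩
  obtain ⟨a, rfl⟩ := int_surjective hpos hint x
  obtain ⟨b, rfl⟩ := int_surjective hpos hint y
  rw [← map_mul, mul_comm, map_mul]

end H

section laz

variable (D : MUData T)

/-- homogeneous components of the classifying homomorphism -/
theorem exists_L0_cmp (z : Laz) (w : ℤ) : ∃ z' : Laz,
    L0 D z' = cmp (stdEven T) D.R w (L0 D z) := by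
  classical
  obtain ⟨z', hz'⟩ := C_surj (Cob.proj w (MvPolynomial.C z : Cob Laz 0))
  have key : ∀ v, ∃ b : (stdEven T).S v ⟶ D.R, HRing.map (amOne D.R)
      (D.ev 0 (Cob.proj v (MvPolynomial.C z))) = HRing.of (stdEven T) D.R v b := by
    intro v
    obtain ⟨a, ha⟩ := D.ev_wt 0 v _ (Cob.isWt_proj v (MvPolynomial.C z))
    exact ⟨a ≫ amOne D.R, by rw [ha, HRing.map_of]⟩
  choose b hb using key
  have h1 : L0 D z' = HRing.of (stdEven T) D.R w (b w) := by
    rw [L0_eq, hz', hb]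
  have h2 : L0 D z = ∑ v ∈ Cob.wts (MvPolynomial.C z : Cob Laz 0),
      HRing.of (stdEven T) D.R v (b v) := by
    rw [L0_eq]
    conv_lhs => rw [← Cob.sum_proj (MvPolynomial.C z : Cob Laz 0)]
    rw [map_sum, map_sum]
    exact Finset.sum_congr rfl fun v _ => hb v
  rw [h2, map_sum]
  by_cases hw : w ∈ Cob.wts (MvPolynomial.C z : Cob Laz 0)
  · refine ⟨z', ?_⟩
    rw [Finset.sum_eq_single w (fun v _ hv => cmp_of_ne _ _ hv _) (fun h => absurd hw h),
      cmp_of_same, h1]
  · refine ⟨0, ?_⟩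
    rw [map_zero]
    refine (Finset.sum_eq_zero fun v hv => ?_).symm
    refine cmp_of_ne _ _ (fun h => hw ?_) _
    rw [← h]
    exact hv

/-- the generators are homogeneous -/
theorem exists_L0_x (n : ℕ) : ∃ a : (stdEven T).S ((n + 1 : ℕ) : ℤ) ⟶ D.R,
    L0 D (Laz.x n) = HRing.of (stdEven T) D.R _ a := by
  obtain ⟨a, ha⟩ := D.ev_wt 0 _ _ (Laz.isWt_x n)
  exact ⟨a ≫ amOne D.R, by rw [L0_eq, ha, HRing.map_of]⟩

end laz

section main

variable {D : MUData T} {Fs : SpaceFunctor T} {e : Fs.S.obj CCF ≅ (stdEven T).L}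
  (hU : MUUniv e D) (HA : MUAll D) {H : T} [MonObj H] (k : D.R ⟶ H) [IsMonHom k]
  [HComm (stdEven T) H] [HComm (stdEven T) (H ⊗ D.R)]
  (hpos : ∀ k : ℤ, k ≠ 0 → ∀ g : (𝟙_ T)⟦k⟧ ⟶ H, g = 0)
  (hint : ∀ f : 𝟙_ T ⟶ H, ∃ m : ℤ, f = m • η[H])
  (hinj : ∀ m : ℤ, m • η[H] = 0 → m = 0)

/-- `ℤ[b] ⟶ π_*(H ⊗ MU)` -/
noncomputable def thB : MvPolynomial ℕ ℤ →+* HRing (stdEven T) (H ⊗ D.R) :=
  (epsA (bA D k)).comp (MvPolynomial.map (Int.castRingHom (HRing (stdEven T) H)))

include hU hpos hint hinj in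
theorem thB_bijective : Function.Bijective (thB k) := by
  refine (epsA_bA_bijective k hU).comp ⟨MvPolynomial.map_injective _ (int_injective hinj),
    MvPolynomial.map_surjective _ (int_surjective hpos hint)⟩

include hpos in
theorem lawA_eq : lawA D k = F.addLaw _ := by
  refine eq_addLaw _ fun n => ?_
  unfold lawA
  rw [← map_xC]
  obtain ⟨a, ha⟩ := exists_L0_x D n
  have h1 : xC D.law n = L0 D (Laz.x n) := by
    unfold L0
    rw [Laz.x, map_xC, Laz.univ_map_lift]
  rw [h1, ha, HRing.map_of, posS hpos (by positivity) (a ≫ k)]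
  exact map_zero _

include hpos in
theorem thB_toB (z : Laz) : thB k (Laz.toB z) =
    HRing.map (E := stdEven T) (inrM H D.R) (L0 D z) := by
  have h1 : (thB k).comp Laz.toB =
      (HRing.map (E := stdEven T) (inrM H D.R)).comp (L0 D) := by
    unfold Laz.toB L0
    rw [Laz.comp_lift, Laz.comp_lift]
    congr 1
    rw [law_inr_A D k]
    unfold thB bL Laz.bLaw
    rw [lawA_eq k hpos, ← Law.map_map]
    congr 1
    rw [InvSeries.map_smul, map_strictMk, map_addLaw, map_addLaw]
    congr 2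
    funext i
    simp
  exact RingHom.congr_fun h1 z

include hU in
/-- the image of a monomial is homogeneous -/
theorem thB_monomial (a : ℕ →₀ ℕ) (c : ℤ) :
    ∃ f : (stdEven T).S (Cob.degU a) ⟶ H ⊗ D.R,
      thB k (MvPolynomial.monomial a c) = HRing.of (stdEven T) (H ⊗ D.R) (Cob.degU a) f := by
  obtain ⟨b, hk, hb⟩ := D.exists_basis_of k hU
  have h1 : thB k (MvPolynomial.monomial a c) =
      c • HRing.of (stdEven T) (H ⊗ D.R) (b.k a) (b.w a) := by
    unfold thB
    rw [RingHom.comp_apply, MvPolynomial.map_monomial, epsA_monomial, ← class_bA, ← hb,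
      eq_intCast, map_intCast, ← zsmul_eq_mul]
  have h2 : ∃ f : (stdEven T).S (b.k a) ⟶ H ⊗ D.R,
      thB k (MvPolynomial.monomial a c) = HRing.of (stdEven T) (H ⊗ D.R) (b.k a) f :=
    ⟨c • b.w a, h1.trans ((DirectSum.of ((stdEven T).Gr (H ⊗ D.R)) (b.k a)).map_zsmul c _).symm⟩
  rw [hk a] at h2
  exact h2

include hU hpos hint hinj k in
/-- **The cokernel.** -/
theorem exists_cok (w : ℤ) : ∃ M : ℤ, M ≠ 0 ∧ ∀ y : (stdEven T).S w ⟶ H ⊗ D.R,
    ∃ (z : Laz) (x : (stdEven T).S w ⟶ D.R), L0 D z = HRing.of (stdEven T) D.R w x ∧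
      M • y = x ≫ inrM H D.R := by
  classical
  obtain ⟨M, hM, hq⟩ := exists_toB_finset (finite_degU w).toFinset
  refine ⟨M, hM, fun y => ?_⟩
  obtain ⟨q, hq1⟩ := (thB_bijective hU k hpos hint hinj).2 (HRing.of (stdEven T) (H ⊗ D.R) w y)
  set q' : MvPolynomial ℕ ℤ := ∑ a ∈ q.support.filter (fun a => Cob.degU a = w),
    MvPolynomial.monomial a (q.coeff a) with hq'
  have h1 : thB k q' = HRing.of (stdEven T) (H ⊗ D.R) w y := by
    have h2 : cmp (stdEven T) (H ⊗ D.R) w (thB k q) = thB k q' := by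
      conv_lhs => rw [q.as_sum]
      rw [hq', map_sum, map_sum, map_sum, Finset.sum_filter]
      refine Finset.sum_congr rfl fun a _ => ?_
      obtain ⟨f, hf⟩ := thB_monomial hU k a (q.coeff a)
      rw [hf]
      split_ifs with h
      · subst h
        exact cmp_of_same _ _
      · exact cmp_of_ne _ _ h _
    rw [← h2, hq1, cmp_of_same]
  obtain ⟨z, hz⟩ := hq q' (by
    intro a ha
    rw [Set.Finite.mem_toFinset]
    rw [hq'] at ha
    have h3 := MvPolynomial.support_sum ha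
    rw [Finset.mem_biUnion] at h3
    obtain ⟨b, hb, hb'⟩ := h3
    rw [Finset.mem_filter] at hb
    have h4 := MvPolynomial.support_monomial_subset hb'
    rw [Finset.mem_singleton] at h4
    rw [h4]
    exact hb.2)
  obtain ⟨z', hz'⟩ := exists_L0_cmp D z w
  refine ⟨z', (L0 D z : HRing (stdEven T) D.R) w, hz', ?_⟩
  have h2 : HRing.of (stdEven T) (H ⊗ D.R) w (M • y) =
      HRing.map (E := stdEven T) (inrM H D.R) (L0 D z) := by
    rw [← thB_toB k hpos, ← hz, map_zsmul, h1]
    exact (DirectSum.of ((stdEven T).Gr (H ⊗ D.R)) w).map_zsmul M y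
  have h3 := congrArg (cmp (stdEven T) (H ⊗ D.R) w) h2
  rw [cmp_of_same, cmp_map] at h3
  refine hring_of_injective _ _ _ (h3.trans ?_)
  exact HRing.map_of _ _ _

include hU hpos hint hinj k in
/-- **The kernel.** -/
theorem eq_zero_of_inr {w : ℤ} {z : Laz} {x : (stdEven T).S w ⟶ D.R}
    (hz : L0 D z = HRing.of (stdEven T) D.R w x) (hx : x ≫ inrM H D.R = 0) : x = 0 := by
  have h1 : thB k (Laz.toB z) = 0 := by
    rw [thB_toB k hpos, hz, HRing.map_of, hx]
    exact map_zero _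
  have h2 : z = 0 := by
    apply Laz.toB_injective
    rw [map_zero]
    exact (thB_bijective hU k hpos hint hinj).1 (h1.trans (map_zero _).symm)
  rw [h2, map_zero] at hz
  exact hring_of_injective _ _ _ (hz.symm.trans (map_zero _).symm)

end main

section onto

variable {D : MUData T} (HA : MUAll D) {p : ℕ} [Fact p.Prime]

include HA in
/-- `Laz ⟶ π_* MU` is onto modulo `p ^ e`. -/
theorem exists_mod_pow (e : ℕ) {w : ℤ} (x : (stdEven T).S w ⟶ D.R) :
    ∃ (z : Laz) (x₀ x₁ : (stdEven T).S w ⟶ D.R), L0 D z = HRing.of (stdEven T) D.R w x₀ ∧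
      x = x₀ + ((p : ℤ) ^ e) • x₁ := by
  obtain ⟨C, i, δ, hC⟩ := distinguished_cocone_triangle ((p : ℤ) • 𝟙 (𝟙_ T))
  have step : ∀ x : (stdEven T).S w ⟶ D.R, ∃ (z : Laz) (x₀ x₁ : (stdEven T).S w ⟶ D.R),
      L0 D z = HRing.of (stdEven T) D.R w x₀ ∧ x = x₀ + (p : ℤ) • x₁ := by
    intro x
    obtain ⟨z, y, hy⟩ := exists_L0_add HA hC (HRing.of (stdEven T) D.R w x)
    obtain ⟨z', hz'⟩ := exists_L0_cmp D z w
    refine ⟨z', (L0 D z : HRing (stdEven T) D.R) w, (y : HRing (stdEven T) D.R) w, hz', ?_⟩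
    have h1 := congrArg (cmp (stdEven T) D.R w) hy
    rw [cmp_of_same, map_add] at h1
    have h2 : (p : HRing (stdEven T) D.R) * y = (p : ℤ) • y := by
      rw [zsmul_eq_mul, Int.cast_natCast]
    rw [h2, map_zsmul] at h1
    refine hring_of_injective _ _ _ (h1.trans ?_)
    have h3 : HRing.of (stdEven T) D.R w
        ((L0 D z : HRing (stdEven T) D.R) w + (p : ℤ) • (y : HRing (stdEven T) D.R) w) =
        HRing.of (stdEven T) D.R w ((L0 D z : HRing (stdEven T) D.R) w) +
          (p : ℤ) • HRing.of (stdEven T) D.R w ((y : HRing (stdEven T) D.R) w) := by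
      have := (DirectSum.of ((stdEven T).Gr D.R) w).map_add
        ((L0 D z : HRing (stdEven T) D.R) w) ((p : ℤ) • (y : HRing (stdEven T) D.R) w)
      refine this.trans ?_
      rw [map_zsmul]
    exact h3.symm
  induction e with
  | zero => exact ⟨0, 0, x, by rw [map_zero]; exact (map_zero _).symm, by simp⟩
  | succ e ih =>
    obtain ⟨z, x₀, x₁, hz, hx⟩ := ih
    obtain ⟨z', x₂, x₃, hz', hx'⟩ := step x₁
    refine ⟨z + ((p : ℤ) ^ e) • z', x₀ + ((p : ℤ) ^ e) • x₂, x₃, ?_, ?_⟩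
    · rw [map_add, map_zsmul, hz, hz']
      have := (DirectSum.of ((stdEven T).Gr D.R) w).map_add x₀ (((p : ℤ) ^ e) • x₂)
      refine Eq.trans ?_ this.symm
      rw [map_zsmul]
    · rw [hx, hx', smul_add, smul_smul, ← pow_succ, add_assoc]

end onto

end hty

end Vale.Agent.P241.H125
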