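import Vale.Agent.P241.H125.UBReg

/-!
# P241, block UB-K, part 2: the unit of `((P ⊗ kos n) ⊗ P/v_n^Q) ⊗ v_{n+1}⁻¹ P`

The class `v_n ^ m 1` is non-zero in `π_0` of this object for `m < Q`.
-/

open CategoryTheory MonoidalCategory Limits Pretriangulated MonObj

set_option linter.unusedSectionVars false

universe v u

namespace Vale.Agent.P241.H125

open Vale.Agent.P251.T Vale.Agent.P251.S Vale.Agent.P251.Z

variable {T : Type u} [Category.{v} T] [Preadditive T] [HasZeroObject T]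
    [HasShift T ℤ] [∀ n : ℤ, (shiftFunctor T n).Additive] [Pretriangulated T] [IsTriangulated T]
    [MonoidalCategory T] [SymmetricCategory T] [TensorTriangulated T] [MonoidalClosed T]
    [HasCoproducts.{0} T] [HasProducts.{0} T] [StableCat T]

/-! ### Maps which are split injective after tensoring with `K` -/

/-- `K ⊗ g` has a retraction -/
def SM (K : T) {A B : T} (g : A ⟶ B) : Prop := ∃ r : K ⊗ B ⟶ K ⊗ A, K ◁ g ≫ r = 𝟙 _

theorem SM.comp {K A B C : T} {g : A ⟶ B} {g' : B ⟶ C} (h : SM K g) (h' : SM K g') :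
    SM K (g ≫ g') := by
  obtain ⟨r, hr⟩ := h
  obtain ⟨r', hr'⟩ := h'
  exact ⟨r' ≫ r, by rw [whiskerLeft_comp, Category.assoc, reassoc_of% hr', hr]⟩

theorem SM.iso (K : T) {A B : T} (g : A ⟶ B) [IsIso g] : SM K g :=
  ⟨K ◁ inv g, by rw [← whiskerLeft_comp, IsIso.hom_inv_id, MonoidalCategory.whiskerLeft_id]⟩

/-- `K ⊗ (X ⊗ A) ≅ X ⊗ (K ⊗ A)` -/
def sw (K X A : T) : K ⊗ (X ⊗ A) ≅ X ⊗ (K ⊗ A) :=
  (α_ K X A).symm ≪≫ whiskerRightIso (β_ K X) A ≪≫ α_ X K A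

theorem sw_natural (K X : T) {A B : T} (g : A ⟶ B) :
    K ◁ (X ◁ g) ≫ (sw K X B).hom = (sw K X A).hom ≫ X ◁ (K ◁ g) := by
  simp only [sw, Iso.trans_hom, Iso.symm_hom, whiskerRightIso_hom, Category.assoc]
  rw [associator_inv_naturality_right_assoc, whisker_exchange_assoc,
    associator_naturality_right]

theorem SM.whiskerLeft {K A B : T} {g : A ⟶ B} (h : SM K g) (X : T) : SM K (X ◁ g) := by
  obtain ⟨r, hr⟩ := h
  refine ⟨(sw K X B).hom ≫ X ◁ r ≫ (sw K X A).inv, ?_⟩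
  rw [reassoc_of% (sw_natural K X g), ← whiskerLeft_comp_assoc, hr,
    MonoidalCategory.whiskerLeft_id, Category.id_comp, Iso.hom_inv_id]

theorem zero_whiskerLeft {K A B : T} {g : A ⟶ B} (h : K ◁ g = 0) (X : T) :
    K ◁ (X ◁ g) = 0 := by
  rw [← cancel_mono (sw K X B).hom, sw_natural, h, MonoidalPreadditive.whiskerLeft_zero,
    comp_zero, zero_comp]

/-- the map to the cofibre of a `K`-trivial map -/
theorem SM.cof {K A B C : T} {w : A ⟶ B} {q : B ⟶ C} {δ : C ⟶ A⟦(1 : ℤ)⟧}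
    (hT : Triangle.mk w q δ ∈ distTriang T) (hw : K ◁ w = 0) : SM K q := by
  obtain ⟨s, hs⟩ := Triangle.yoneda_exact₂ _ (tens_dist K hT) (𝟙 (K ⊗ B)) (by
    change K ◁ w ≫ 𝟙 _ = 0
    rw [hw, zero_comp])
  exact ⟨s, hs.symm⟩

theorem SM.ne_zero {K B : T} {g : 𝟙_ T ⟶ B} (h : SM K g) (hK : ¬ IsZero K) : g ≠ 0 := by
  rintro rfl
  obtain ⟨r, hr⟩ := h
  rw [MonoidalPreadditive.whiskerLeft_zero, zero_comp] at hr
  exact hK (IsZero.of_iso ((IsZero.iff_id_eq_zero _).2 hr.symm) (ρ_ K).symm)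

variable {P : T} [MonObj P] {p : ℤ} {h : ℕ} {v : ℕ → (𝟙_ T ⟶ P)}

/-! ### The unit of the Koszul objects -/

/-- the unit of the factor `Q i` -/
def QOne (D : KosData P p h v) : ∀ i, 𝟙_ T ⟶ D.Q i
  | 0 => D.q0
  | i + 1 => η[P] ≫ D.q i

/-- the unit of `kos i` -/
def kosOne (D : KosData P p h v) : ∀ i, 𝟙_ T ⟶ D.kos i
  | 0 => 𝟙 _
  | i + 1 => kosOne D i ≫ (ρ_ (D.kos i)).inv ≫ D.kos i ◁ QOne D i

theorem sm_kosOne (D : KosData P p h v) {K : T} (h0 : p • 𝟙 K = 0) {m : ℕ}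
    (hK : ∀ i, 1 ≤ i → i < m → K ◁ vP v i = 0) (hη : SM K η[P]) (i : ℕ) (hi : i ≤ m) :
    SM K (kosOne D i) := by
  have hQ : ∀ i, i < m → SM K (QOne D i) := by
    intro i hi
    match i with
    | 0 =>
      refine SM.cof D.dist0 ?_
      rw [whiskerLeft_zsmul', MonoidalCategory.whiskerLeft_id, ← id_whiskerRight,
        ← whiskerRight_zsmul', h0, MonoidalPreadditive.zero_whiskerRight]
    | i + 1 => exact hη.comp (SM.cof (D.dist i) (hK (i + 1) (by omega) hi))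
  induction i with
  | zero => exact SM.iso K (𝟙 (𝟙_ T))
  | succ i ih => exact (ih (by omega)).comp ((SM.iso K _).comp ((hQ i (by omega)).whiskerLeft _))

/-- `1` is not divisible by `v_n` in `π_0 (kos n ⊗ P)` -/
theorem kosOne_ne (D : KosData P p h v) {K : T} (hK0 : ¬ IsZero K) (h0 : p • 𝟙 K = 0) {n : ℕ}
    (hK : ∀ i, i < n + 1 → K ◁ vP v i = 0) (hη : SM K η[P]) (y : 𝟙_ T ⟶ D.kos n ⊗ P) :
    kosOne D n ≫ (ρ_ (D.kos n)).inv ≫ D.kos n ◁ η[P] ≠ y ≫ D.kos n ◁ vP v n := by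
  intro he
  have h1 : SM K (kosOne D n ≫ (ρ_ (D.kos n)).inv ≫ D.kos n ◁ η[P]) :=
    (sm_kosOne D h0 (m := n + 1) (fun i _ hi => hK i hi) hη n (by omega)).comp
      ((SM.iso K _).comp (hη.whiskerLeft _))
  obtain ⟨r, hr⟩ := h1
  rw [he, whiskerLeft_comp, zero_whiskerLeft (hK n (by omega)), comp_zero, zero_comp] at hr
  exact hK0 (IsZero.of_iso ((IsZero.iff_id_eq_zero _).2 hr.symm) (ρ_ K).symm)

/-! ### Elements -/

/-- `e ⊗ g : 𝟙 ⟶ N ⊗ B` -/
def el {N B : T} (e : 𝟙_ T ⟶ N) (g : 𝟙_ T ⟶ B) : 𝟙_ T ⟶ N ⊗ B := e ≫ (ρ_ N).inv ≫ N ◁ g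

theorem el_comp_left {N N' B : T} (e : 𝟙_ T ⟶ N) (g : 𝟙_ T ⟶ B) (φ : N ⟶ N') :
    el e g ≫ φ ▷ B = el (e ≫ φ) g := by
  simp only [el, Category.assoc]
  rw [whisker_exchange, ← rightUnitor_inv_naturality_assoc]

theorem el_comp_right {N B B' : T} (e : 𝟙_ T ⟶ N) (g : 𝟙_ T ⟶ B) (ψ : B ⟶ B') :
    el e g ≫ N ◁ ψ = el e (g ≫ ψ) := by
  simp only [el, Category.assoc, whiskerLeft_comp]

theorem itr_whiskerRight {X : T} (f : X ⟶ X) (Y : T) (m : ℕ) :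
    itr (f ▷ Y) m = itr f m ▷ Y := by
  induction m with
  | zero => simp
  | succ m ih => rw [itr_succ, itr_succ, ih, comp_whiskerRight]

variable [IsCommMonObj P]

theorem el_extR {N : T} (M : ModStr P N) (e : 𝟙_ T ⟶ N) : el e η[P] ≫ M.extR (𝟙 N) = e := by
  unfold el ModStr.extR ModStr.ext
  have h1 : (ρ_ N).inv ≫ N ◁ η[P] ≫ (β_ N P).hom = (λ_ N).inv ≫ η[P] ▷ N := by
    rw [BraidedCategory.braiding_naturality_right]
    simp
  simp only [Category.assoc, MonoidalCategory.whiskerLeft_id, Category.id_comp]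
  rw [reassoc_of% h1, M.one_act, Iso.inv_hom_id, Category.comp_id]

/-- step 1: the telescope -/
theorem exists_of_tel {N : T} (M : ModStr P N) (a b : 𝟙_ T ⟶ P)
    (U : Tel (X := fun _ => P) (fun _ => (ModStr.self P).smul b)) (e : 𝟙_ T ⟶ N) (m : ℕ)
    (he : el e (η[P] ≫ U.ι 0) ≫ itr ((M.tensorRight U.obj).smul a) m = 0) :
    ∃ s, (e ≫ itr (M.smul a) m) ≫ itr (M.smul b) s = 0 := by
  have h1 : itr ((M.tensorRight U.obj).smul a) m = itr (M.smul a) m ▷ U.obj := by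
    rw [ModStr.tensorRight_smul, itr_whiskerRight]
  rw [h1, el_comp_left, ← el_comp_right] at he
  have h2 : el (e ≫ itr (M.smul a) m) η[P] ≫ (U.tensL N).ι 0 = 0 := he
  obtain ⟨s, hs⟩ := (U.tensL N).exists_eq_zero
    (isCpt_sphere (isSphere_one (T := T))) _ h2
  refine ⟨s, ?_⟩
  have h3 : trT (X := fun _ => N ⊗ P) (fun _ => N ◁ (ModStr.self P).smul b) 0 s =
      itr (N ◁ (ModStr.self P).smul b) s := trT_const _ 0 s
  have h4 : el (e ≫ itr (M.smul a) m) η[P] ≫ itr (N ◁ (ModStr.self P).smul b) s = 0 := by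
    rw [← h3]
    exact hs
  have h5 : itr (N ◁ (ModStr.self P).smul b) s ≫ M.extR (𝟙 N) =
      M.extR (𝟙 N) ≫ itr (M.smul b) s := by
    refine itr_comm ?_ s
    rw [ModStr.self_smul_extR, ModStr.extR_smul]
  have h6 := congrArg (fun z => z ≫ M.extR (𝟙 N)) h4
  simp only [zero_comp, Category.assoc] at h6
  rw [h5, ← Category.assoc, el_extR] at h6
  exact h6

/-- step 2: the cofibre -/
theorem exists_of_cof {N : T} (M : ModStr P N) (a b : 𝟙_ T ⟶ P) {w : P ⟶ P} {C : T} {q : P ⟶ C}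
    {δ : C ⟶ P⟦(1 : ℤ)⟧} (hT : Triangle.mk w q δ ∈ distTriang T) (e : 𝟙_ T ⟶ N) (m s : ℕ)
    (he : (el e (η[P] ≫ q) ≫ itr ((M.tensorRight C).smul a) m) ≫
      itr ((M.tensorRight C).smul b) s = 0) :
    ∃ z : 𝟙_ T ⟶ N ⊗ P, el ((e ≫ itr (M.smul a) m) ≫ itr (M.smul b) s) η[P] = z ≫ N ◁ w := by
  have h1 : ∀ (c : 𝟙_ T ⟶ P) (k : ℕ), itr ((M.tensorRight C).smul c) k = itr (M.smul c) k ▷ C := by
    intro c k
    rw [ModStr.tensorRight_smul, itr_whiskerRight]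
  rw [h1, h1, el_comp_left, el_comp_left, ← el_comp_right] at he
  exact ex₂ (tens_dist N hT) _ he

/-- `(P ⊗ X) ⊗ P' ≅ X ⊗ (P' ⊗ P)` -/
def kap (P X P' : T) : (P ⊗ X) ⊗ P' ≅ X ⊗ (P' ⊗ P) :=
  whiskerRightIso (β_ P X) P' ≪≫ α_ X P P' ≪≫ whiskerLeftIso X (β_ P P')

@[reassoc]
theorem kap_left (X P' : T) {P P₂ : T} (φ : P ⟶ P₂) :
    (φ ▷ X) ▷ P' ≫ (kap P₂ X P').hom = (kap P X P').hom ≫ X ◁ (P' ◁ φ) := by
  simp only [kap, Iso.trans_hom, whiskerRightIso_hom, whiskerLeftIso_hom, Category.assoc]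
  rw [← comp_whiskerRight_assoc, BraidedCategory.braiding_naturality_left,
    comp_whiskerRight_assoc, associator_naturality_middle_assoc, ← whiskerLeft_comp,
    ← whiskerLeft_comp, BraidedCategory.braiding_naturality_left]

theorem kap_right (P X : T) {P' P₂ : T} (φ : P' ⟶ P₂) :
    (P ⊗ X) ◁ φ ≫ (kap P X P₂).hom = (kap P X P').hom ≫ X ◁ (φ ▷ P) := by
  simp only [kap, Iso.trans_hom, whiskerRightIso_hom, whiskerLeftIso_hom, Category.assoc]
  rw [whisker_exchange_assoc, associator_naturality_right_assoc, ← whiskerLeft_comp,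
    ← whiskerLeft_comp, BraidedCategory.braiding_naturality_right]

theorem kap_unit (X : T) (x : 𝟙_ T ⟶ X) :
    el (x ≫ (λ_ X).inv ≫ η[P] ▷ X) η[P] ≫ (kap P X P).hom ≫ X ◁ μ[P] = el x η[P] := by
  have h1 : (λ_ X).inv ≫ (η[P] ▷ X) ≫ (β_ P X).hom = (ρ_ X).inv ≫ X ◁ η[P] := by
    rw [BraidedCategory.braiding_naturality_left]
    simp
  have h2 : X ◁ (β_ P P).hom ≫ X ◁ μ[P] = X ◁ μ[P] := by
    rw [← whiskerLeft_comp, IsCommMonObj.mul_comm]
  have h3 : (ρ_ P).inv ≫ P ◁ η[P] ≫ μ[P] = 𝟙 P := by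
    rw [MonObj.mul_one, Iso.inv_hom_id]
  simp only [el, kap, Iso.trans_hom, whiskerRightIso_hom, whiskerLeftIso_hom, Category.assoc]
  rw [h2, whisker_exchange_assoc, ← rightUnitor_inv_naturality_assoc, reassoc_of% h1,
    associator_naturality_right_assoc]
  have h4 : (ρ_ (X ⊗ P)).inv ≫ (α_ X P (𝟙_ T)).hom = X ◁ (ρ_ P).inv := by
    rw [rightUnitor_tensor_inv, Category.assoc, Iso.inv_hom_id, Category.comp_id]
  rw [reassoc_of% h4, ← whiskerLeft_comp, ← whiskerLeft_comp, ← whiskerLeft_comp, h3,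
    Category.comp_id]

/-- **Non-vanishing.** `v_n ^ m 1 ≠ 0` in `π_0 (((P ⊗ kos n) ⊗ C) ⊗ v_{n+1}⁻¹ P)`, `C` the cofibre
of `v_n ^ Q`, for `m < Q`. -/
theorem one_ne {n : ℕ} (hv : InvData P p (n + 2) v) (h0 : InvRel P v n)
    (hreg : ∀ A : T, IsSphere A → GoodReg 0 (n + 2) (fun k => pc A (vP v k)))
    {J : Type} (f : J → (P ⟶ P ⊗ P)) (linf : ∀ a, Lin (f a)) (free : IsIso (Sigma.desc f))
    (D : KosData P p (n + 2) v) {Q : ℕ} {C : T} {q : P ⟶ C} {δ : C ⟶ P⟦(1 : ℤ)⟧}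
    (hT : Triangle.mk (itr (vP v n) Q) q δ ∈ distTriang T)
    (U : Tel (X := fun _ => P) (fun _ => (ModStr.self P).smul (v (n + 1))))
    (hne : ∀ y : 𝟙_ T ⟶ D.kos n ⊗ P, el (kosOne D n) η[P] ≠ y ≫ D.kos n ◁ vP v n)
    {m : ℕ} (hm : m < Q) :
    el (el (kosOne D n ≫ (λ_ _).inv ≫ η[P] ▷ _) (η[P] ≫ q)) (η[P] ≫ U.ι 0) ≫
      itr (((((ModStr.self P).tensorRight (D.kos n)).tensorRight C).tensorRight U.obj).smul
        (v n)) m ≠ 0 := by
  intro he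
  set X := D.kos n with hX
  set M0 := (ModStr.self P).tensorRight X with hM0
  obtain ⟨s, hs⟩ := exists_of_tel _ (v n) (v (n + 1)) U _ m he
  obtain ⟨z, hz⟩ := exists_of_cof M0 (v n) (v (n + 1)) hT _ m s hs
  set E := el (kosOne D n ≫ (λ_ X).inv ≫ η[P] ▷ X) η[P] ≫ (kap P X P).hom with hE
  -- regularity on `X ⊗ (P ⊗ P)`
  have hR : ∀ A : T, IsSphere A → GoodReg n (n + 2) (fun k => pc A (X ◁ (P ◁ vP v k))) := by
    intro A hA
    refine (reg_kos hv hreg f linf free D (show n ≤ n + 2 by omega) A hA).sum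
      (fun a => pc A (X ◁ f a)) (bij_sum X f hA) ?_
    intro a k x
    simp only [pc_apply, Category.assoc]
    rw [← whiskerLeft_comp, ← whiskerLeft_comp, (linf a).smul_comm (v k)]
  -- transport of the equation
  have hM : ∀ (a : 𝟙_ T ⟶ P) (k : ℕ), itr (M0.smul a) k = itr ((ModStr.self P).smul a) k ▷ X := by
    intro a k
    rw [hM0, ModStr.tensorRight_smul, itr_whiskerRight]
  obtain ⟨z', hz'⟩ := exists_left (X := X) h0
    (fun A hA j hj x => (hR A hA).zero j hj x) Q isSphere_one (z ≫ (kap P X P).hom)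
  have h1 : (E ≫ X ◁ (P ◁ itr (vP v n) m)) ≫ X ◁ (P ◁ itr (vP v (n + 1)) s) =
      z' ≫ X ◁ (P ◁ itr (vP v n) Q) := by
    rw [← hz', Category.assoc z, ← kap_right, ← Category.assoc z, ← hz, hM, hM,
      ← el_comp_left, ← el_comp_left]
    simp only [hE, Category.assoc]
    rw [kap_left, kap_left_assoc]
  obtain ⟨y, hy⟩ := reg_dvd_one (hR (𝟙_ T) isSphere_one) hm (s := s) (e := E) (z := z') (by
    rw [pc_iterate, pc_iterate, pc_iterate]
    simp only [← whiskerLeft_itr]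
    exact h1)
  refine hne (y ≫ X ◁ μ[P]) ?_
  have h2 : P ◁ vP v n ≫ μ[P] = μ[P] ≫ vP v n := ((ModStr.self P).smul_linear (v n)).symm
  rw [← kap_unit X (kosOne D n), ← Category.assoc, ← hE, hy, pc_apply, Category.assoc,
    Category.assoc, ← whiskerLeft_comp, ← whiskerLeft_comp, h2]

end Vale.Agent.P241.H125
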