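import Vale.Agent.P241.H125.UBOne
import Vale.Agent.P251.Z.Acyc
import Vale.Agent.P093.N2.ChiDual

/-!
# P241, block UB-K, part 3: the product trick (F4)

`ClassM v n L M` : `M` is a `P`-module structure with `v_k ^ L = 0` for `k < n`, `v_n` nilpotent and
`v_{n+1}` invertible. `Blue v n X Y` : a power of `v_n` kills `N ⊗ Y` for all such modules `N` with
`N ⊗ X = 0`, with an exponent depending only on `L`. Then `K(n) ⊗ Y = 0`.
-/

open CategoryTheory MonoidalCategory Limits Pretriangulated MonObj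

set_option linter.unusedSectionVars false

universe v u

namespace Vale.Agent.P241.H125

open Vale.Agent.P251.T Vale.Agent.P251.S Vale.Agent.P251.Z Vale.Agent.P093.N2

variable {T : Type u} [Category.{v} T] [Preadditive T] [HasZeroObject T]
    [HasShift T ℤ] [∀ n : ℤ, (shiftFunctor T n).Additive] [Pretriangulated T] [IsTriangulated T]
    [MonoidalCategory T] [SymmetricCategory T] [TensorTriangulated T] [MonoidalClosed T]
    [HasCoproducts.{0} T] [HasProducts.{0} T] [StableCat T]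

variable {P : T} [MonObj P] {p : ℤ} {h : ℕ} {v : ℕ → (𝟙_ T ⟶ P)}

/-- The class of `P`-modules used in the upper bound. -/
def ClassM (v : ℕ → (𝟙_ T ⟶ P)) (n L : ℕ) {N : T} (M : ModStr P N) : Prop :=
  (∀ k < n, (M.sm (v k)) ^ L = 0) ∧ IsNilpotent (M.sm (v n)) ∧ IsIso (M.smul (v (n + 1)))

/-- The input from geometry and algebra: `v_n` is nilpotent on `N ⊗ Y`, uniformly. -/
def Blue (v : ℕ → (𝟙_ T ⟶ P)) (n : ℕ) (X Y : T) : Prop :=
  ∀ L : ℕ, ∃ m : ℕ, ∀ (N : T) (M : ModStr P N), ClassM v n L M → Acyclic N X →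
    ((M.tensorRight Y).sm (v n)) ^ m = 0

/-! ### Products -/

/-- a product of modules -/
noncomputable def prodM {I : Type} {N : I → T} (M : ∀ i, ModStr P (N i)) :
    ModStr P (∏ᶜ N) where
  act := Pi.lift fun i => P ◁ Pi.π N i ≫ (M i).act
  one_act := by
    refine Pi.hom_ext _ _ fun i => ?_
    rw [Category.assoc, Pi.lift_π, ← whisker_exchange_assoc, (M i).one_act,
      leftUnitor_naturality]
  mul_act := by
    refine Pi.hom_ext _ _ fun i => ?_
    simp only [Category.assoc, Pi.lift_π]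
    rw [← whisker_exchange_assoc, (M i).mul_act, ← whiskerLeft_comp_assoc P, Pi.lift_π,
      whiskerLeft_comp, Category.assoc, associator_naturality_right_assoc]

theorem prodM_smul_π {I : Type} {N : I → T} (M : ∀ i, ModStr P (N i)) (a : 𝟙_ T ⟶ P) (i : I) :
    (prodM M).smul a ≫ Pi.π N i = Pi.π N i ≫ (M i).smul a := by
  unfold ModStr.smul prodM
  simp only [Category.assoc, Pi.lift_π]
  rw [← whisker_exchange_assoc, ← leftUnitor_inv_naturality_assoc]

theorem prodM_itr_π {I : Type} {N : I → T} (M : ∀ i, ModStr P (N i)) (a : 𝟙_ T ⟶ P) (m : ℕ)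
    (i : I) : itr ((prodM M).smul a) m ≫ Pi.π N i = Pi.π N i ≫ itr ((M i).smul a) m :=
  itr_comm (prodM_smul_π M a i) m

theorem prodM_pow {n L : ℕ} {N : ℕ → T} {M : ∀ Q, ModStr P (N Q)}
    (hL : ∀ Q, ClassM v n L (M Q)) (k : ℕ) (hk : k < n) : ((prodM M).sm (v k)) ^ L = 0 := by
  have h0 : itr ((prodM M).smul (v k)) L = 0 := by
    refine Pi.hom_ext _ _ fun Q => ?_
    have h1 : itr ((M Q).smul (v k)) L = 0 := by
      have := (hL Q).1 k hk
      rw [← itr_eq_pow] at this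
      exact this
    rw [zero_comp, prodM_itr_π, h1, comp_zero]
  rw [← itr_eq_pow]
  exact h0

/-- a dualizable object detects products -/
theorem eq_zero_of_pi {I : Type} {N : I → T} {Y : T} (hY : Dz Y) {A : T}
    (g : A ⟶ (∏ᶜ N) ⊗ Y) (h : ∀ i, g ≫ Pi.π N i ▷ Y = 0) : g = 0 := by
  obtain ⟨L, ⟨_⟩⟩ := hY
  have h0 : ∀ Z : T, (tensorRightHomEquiv A L Y Z) 0 = 0 := by
    intro Z
    simp [tensorRightHomEquiv]
  have e : (tensorRightHomEquiv A L Y (∏ᶜ N)).symm g = 0 := by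
    refine Pi.hom_ext _ _ fun i => ?_
    rw [zero_comp]
    apply (tensorRightHomEquiv A L Y (N i)).injective
    rw [tensorRightHomEquiv_naturality, Equiv.apply_symm_apply, h, h0]
  rw [← h0, ← e, Equiv.apply_symm_apply]

theorem dist_pow {X C : T} {w : End X} {Q : ℕ} {q : X ⟶ C} {δ : C ⟶ X⟦(1 : ℤ)⟧}
    (h : Triangle.mk (itr w Q) q δ ∈ distTriang T) :
    Triangle.mk (w ^ Q : End X) q δ ∈ distTriang T := by
  rw [← itr_eq_pow]
  exact h

theorem pow_eq_zero_iff_itr {X : T} (w : End X) (m : ℕ) : w ^ m = 0 ↔ itr w m = 0 := by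
  rw [itr_eq_pow]

/-! ### Integers prime to `p` -/

theorem isIso_zsmul_of_pow {N : T} {p m : ℤ} {L : ℕ} (h : (p ^ L : ℤ) • 𝟙 N = 0)
    (hm : IsCoprime m p) : IsIso (m • 𝟙 N) := by
  obtain ⟨a, b, hab⟩ := hm.pow_right (n := L)
  have h1 : (a * m) • 𝟙 N = 𝟙 N := by
    have : (a * m + b * p ^ L) • 𝟙 N = 𝟙 N := by rw [hab, one_smul]
    rwa [add_smul, mul_smul b, h, smul_zero, add_zero] at this
  refine ⟨a • 𝟙 N, ?_, ?_⟩
  · rw [Preadditive.zsmul_comp, Category.id_comp, smul_smul, mul_comm, h1]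
  · rw [Preadditive.zsmul_comp, Category.id_comp, smul_smul, h1]

theorem isIso_zsmul_prod {I : Type} {N : I → T} {m : ℤ} (h : ∀ i, IsIso (m • 𝟙 (N i))) :
    IsIso (m • 𝟙 (∏ᶜ N)) := by
  refine ⟨Pi.lift fun i => Pi.π N i ≫ inv (m • 𝟙 (N i)), ?_, ?_⟩
  · refine Pi.hom_ext _ _ fun i => ?_
    rw [Category.assoc, Pi.lift_π, Preadditive.zsmul_comp, Category.id_comp, Category.id_comp]
    have h1 : m • (Pi.π N i ≫ inv (m • 𝟙 (N i))) = Pi.π N i ≫ (m • 𝟙 (N i)) ≫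
        inv (m • 𝟙 (N i)) := by
      rw [Preadditive.zsmul_comp, Category.id_comp, Preadditive.comp_zsmul]
    rw [h1, IsIso.hom_inv_id, Category.comp_id]
  · refine Pi.hom_ext _ _ fun i => ?_
    rw [Category.assoc, Preadditive.zsmul_comp, Category.id_comp,
      Preadditive.comp_zsmul, Pi.lift_π]
    have h1 : m • (Pi.π N i ≫ inv (m • 𝟙 (N i))) = Pi.π N i ≫ (m • 𝟙 (N i)) ≫
        inv (m • 𝟙 (N i)) := by
      rw [Preadditive.zsmul_comp, Category.id_comp, Preadditive.comp_zsmul]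
    rw [h1, IsIso.hom_inv_id, Category.comp_id]

theorem isIso_zsmul_tensor {N : T} {m : ℤ} (h : IsIso (m • 𝟙 N)) (X : T) :
    IsIso (m • 𝟙 (N ⊗ X)) := by
  have h1 : m • 𝟙 (N ⊗ X) = (m • 𝟙 N) ▷ X := by
    rw [whiskerRight_zsmul', id_whiskerRight]
  rw [h1]
  infer_instance

variable [IsCommMonObj P]

/-- `v_0 = p` as an endomorphism -/
theorem smul_v0 (hv0 : v 0 = p • η[P]) {N : T} (M : ModStr P N) : M.smul (v 0) = p • 𝟙 N := by
  rw [hv0]
  have h1 := map_zsmul M.smulHom p η[P]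
  have h2 : M.smulHom η[P] = 𝟙 N := M.smul_one
  rw [h2] at h1
  exact h1

theorem itr_zsmul_id {N : T} (p : ℤ) (L : ℕ) : itr (p • 𝟙 N) L = (p ^ L : ℤ) • 𝟙 N := by
  induction L with
  | zero => simp
  | succ L ih =>
    rw [itr_succ, ih, Preadditive.zsmul_comp, Category.id_comp, smul_smul, pow_succ]

/-! ### The modules `M_Q` -/

section MQ

variable {n : ℕ} (D : KosData P p (n + 2) v)
  (U : Tel (X := fun _ : ℕ => P) (fun _ => (ModStr.self P).smul (v (n + 1)))) (Q : ℕ)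

/-- the cofibre of `v_n ^ Q` -/
noncomputable abbrev CQ (v : ℕ → (𝟙_ T ⟶ P)) (n Q : ℕ) : T := cof (itr (vP v n) Q)

/-- the object `((P ⊗ kos n) ⊗ P/v_n^Q) ⊗ v_{n+1}⁻¹ P` -/
noncomputable abbrev NQ : T := ((P ⊗ D.kos n) ⊗ CQ v n Q) ⊗ U.obj

/-- its module structure -/
noncomputable abbrev MQ : ModStr P (NQ D U Q) :=
  (((ModStr.self P).tensorRight (D.kos n)).tensorRight (CQ v n Q)).tensorRight U.obj

theorem classM_MQ (hv : InvData P p (n + 2) v) (h0 : InvRel P v n) :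
    ∃ L, ∀ Q, ClassM v n L (MQ D U Q) := by
  have hb : ∀ k < n, IsNilpotent (((ModStr.self P).tensorRight (D.kos n)).sm (v k)) :=
    fun k hk => D.nil_kos (ModStr.self P) hv n (by omega) k hk
  choose! e he using hb
  refine ⟨∑ k ∈ Finset.range n, e k, fun Q => ⟨fun k hk => ?_, ?_, ?_⟩⟩
  · have h1 : (((ModStr.self P).tensorRight (D.kos n)).sm (v k)) ^
        (∑ k ∈ Finset.range n, e k) = 0 := by
      have h2 : e k ≤ ∑ k ∈ Finset.range n, e k :=
        Finset.single_le_sum (f := e) (fun _ _ => Nat.zero_le _) (Finset.mem_range.2 hk)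
      exact pow_eq_zero_of_le h2 (he k hk)
    rw [sm_tensorRight, sm_tensorRight, ← map_pow, ← map_pow, h1]
    change ((0 : P ⊗ D.kos n ⟶ P ⊗ D.kos n) ▷ _) ▷ _ = 0
    rw [MonoidalPreadditive.zero_whiskerRight, MonoidalPreadditive.zero_whiskerRight]
  · refine isNilpotent_tensorRight _ _ _ ?_
    exact isNilpotent_step _ v n h0 (fun k hk => ⟨e k, he k hk⟩) Q
      (q := cofπ (itr (vP v n) Q)) (δ := cofδ (itr (vP v n) Q))
      (dist_pow (cof_dist (itr (vP v n) Q)))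
  · refine isIso_a2 _ v (n + 1) (hv.inv (n + 1) (by omega) (by omega)) ?_ U
    intro k hk
    rcases Nat.lt_succ_iff_lt_or_eq.1 hk with hk | rfl
    · exact isNilpotent_tensorRight _ _ _ ⟨e k, he k hk⟩
    · exact isNilpotent_step _ v k h0 (fun k hk => ⟨e k, he k hk⟩) Q
        (q := cofπ (itr (vP v k) Q)) (δ := cofδ (itr (vP v k) Q))
        (dist_pow (cof_dist (itr (vP v k) Q)))

/-- the unit of `NQ` -/
noncomputable def oneQ : 𝟙_ T ⟶ NQ D U Q :=
  el (el (kosOne D n ≫ (λ_ _).inv ≫ η[P] ▷ _) (η[P] ≫ cofπ (itr (vP v n) Q))) (η[P] ≫ U.ι 0)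

end MQ

/-- `(N ⊗ X) ⊗ Y ≅ (N ⊗ Y) ⊗ X` -/
def swR (N X Y : T) : (N ⊗ X) ⊗ Y ≅ (N ⊗ Y) ⊗ X :=
  α_ N X Y ≪≫ whiskerLeftIso N (β_ X Y) ≪≫ (α_ N Y X).symm

theorem swR_natural {N N' : T} (φ : N ⟶ N') (X Y : T) :
    (swR N X Y).hom ≫ (φ ▷ Y) ▷ X = (φ ▷ X) ▷ Y ≫ (swR N' X Y).hom := by
  simp only [swR, Iso.trans_hom, whiskerLeftIso_hom, Iso.symm_hom, Category.assoc]
  rw [associator_naturality_left_assoc, ← whisker_exchange_assoc,
    associator_inv_naturality_left]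

/-- Nilpotence of `p` on a module of the class. -/
theorem exists_pow_zsmul {n : ℕ} (hv0 : v 0 = p • η[P]) {L : ℕ} {N : T} {M : ModStr P N}
    (hM : ClassM v n L M) : ∃ L, (p ^ L : ℤ) • 𝟙 N = 0 := by
  have hn0 : IsNilpotent (M.sm (v 0)) := by
    rcases Nat.eq_zero_or_pos n with hn | hn
    · have key : ∀ j, j = n → IsNilpotent (M.sm (v j)) := by
        rintro _ rfl
        exact hM.2.1
      exact key 0 hn.symm
    · exact ⟨L, hM.1 0 hn⟩
  obtain ⟨L', hL'⟩ := hn0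
  refine ⟨L', ?_⟩
  rw [← itr_zsmul_id, ← smul_v0 hv0 M]
  exact (pow_eq_zero_iff_itr _ _).1 hL'

/-- **(F4), the abstract product trick.** -/
theorem acyclic_of_blue' {n : ℕ} (hv : InvData P p (n + 2) v) (h0 : InvRel P v n)
    (hreg : ∀ A : T, IsSphere A → GoodReg 0 (n + 2) (fun k => pc A (vP v k)))
    {J : Type} (f : J → (P ⟶ P ⊗ P)) (linf : ∀ a, Lin (f a)) (free : IsIso (Sigma.desc f))
    {K₁ : T} (hK0 : ¬ IsZero K₁) (hKp : p • 𝟙 K₁ = 0)
    (hKv : ∀ i, i < n + 1 → K₁ ◁ vP v i = 0) (hKη : SM K₁ η[P])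
    {X Y : T} (hX : ∀ (L : ℕ) (N : T) (M : ModStr P N), ClassM v n L M → Acyclic N X)
    (hB : Blue v n X Y) (hY : Dz Y) {K : T}
    (hF : ¬ Acyclic K Y → ∀ W : T, IsZero (W ⊗ Y) → Acyclic K W)
    (hK : ∀ (N : ℕ → T) (M : ∀ Q, ModStr P (N Q)) (L : ℕ), (∀ Q, ClassM v n L (M Q)) →
      ∀ U₀ : Tel (X := fun _ : ℕ => P) (fun _ => (ModStr.self P).smul (v n)),
        Acyclic K ((∏ᶜ N) ⊗ U₀.obj) → IsZero ((∏ᶜ N) ⊗ U₀.obj)) : Acyclic K Y := by
  by_contra hKY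
  obtain ⟨D⟩ := exists_kosData P p (n + 2) v
  obtain ⟨U₁⟩ := exists_tel (X := fun _ : ℕ => P) (fun _ => (ModStr.self P).smul (v (n + 1)))
  obtain ⟨U₀⟩ := exists_tel (X := fun _ : ℕ => P) (fun _ => (ModStr.self P).smul (v n))
  obtain ⟨L, hL⟩ := classM_MQ D U₁ hv h0
  obtain ⟨m, hm⟩ := hB L
  have hm' : ∀ Q, (((MQ D U₁ Q).tensorRight Y).sm (v n)) ^ m = 0 :=
    fun Q => hm _ _ (hL Q) (hX L _ _ (hL Q))
  -- the product
  set M := prodM (fun Q => MQ D U₁ Q) with hM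
  have hMk : ∀ k < n, (M.sm (v k)) ^ L = 0 := fun k hk => prodM_pow hL k hk
  have hMY : ((M.tensorRight Y).sm (v n)) ^ m = 0 := by
    rw [pow_eq_zero_iff_itr]
    refine eq_zero_of_pi hY _ fun Q => ?_
    have h1 : itr ((MQ D U₁ Q).smul (v n)) m ▷ Y = 0 := by
      have := (pow_eq_zero_iff_itr _ m).1 (hm' Q)
      rw [← itr_whiskerRight, ← ModStr.tensorRight_smul]
      exact this
    have h2 : itr ((M.tensorRight Y).sm (v n)) m = itr (M.smul (v n)) m ▷ Y := by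
      rw [← itr_whiskerRight, ← ModStr.tensorRight_smul]
      rfl
    rw [h2, ← comp_whiskerRight, hM, prodM_itr_π, comp_whiskerRight, h1, comp_zero]
  -- the telescope
  set M' := M.tensorRight U₀.obj with hM'
  have hiso : IsIso (M'.smul (v n)) :=
    isIso_a2 M v n h0 (fun k hk => ⟨L, hMk k hk⟩) U₀
  have hWY : IsZero (((∏ᶜ fun Q => NQ D U₁ Q) ⊗ U₀.obj) ⊗ Y) := by
    refine isZero_of_nilpotent_iso (f := (M'.tensorRight Y).sm (v n)) ?_ ?_
    · have h1 : IsNilpotent (((M.tensorRight Y).tensorRight U₀.obj).sm (v n)) :=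
        isNilpotent_tensorRight _ _ _ ⟨m, hMY⟩
      refine isNilpotent_conj (swR _ Y U₀.obj) ?_ h1
      change (swR _ Y U₀.obj).hom ≫ (M'.tensorRight Y).smul (v n) =
        ((M.tensorRight Y).tensorRight U₀.obj).smul (v n) ≫ (swR _ Y U₀.obj).hom
      rw [hM', ModStr.tensorRight_smul, ModStr.tensorRight_smul, ModStr.tensorRight_smul,
        ModStr.tensorRight_smul]
      exact swR_natural _ _ _
    · change IsIso ((M'.tensorRight Y).smul (v n))
      rw [ModStr.tensorRight_smul]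
      infer_instance
  have hW := hK _ _ L hL U₀ (hF hKY _ hWY)
  -- the unit
  let e : 𝟙_ T ⟶ ∏ᶜ fun Q => NQ D U₁ Q := Pi.lift fun Q => oneQ D U₁ Q
  have he : ∀ s, e ≫ itr (M.smul (v n)) s ≠ 0 := by
    intro s h1
    have h2 : (e ≫ itr (M.smul (v n)) s) ≫ Pi.π _ (s + 1) = 0 := by rw [h1, zero_comp]
    rw [Category.assoc, hM, prodM_itr_π, ← Category.assoc] at h2
    have h3 : e ≫ Pi.π (fun Q => NQ D U₁ Q) (s + 1) = oneQ D U₁ (s + 1) := by
      simp [e]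
    rw [h3] at h2
    exact one_ne hv h0 hreg f linf free D (cof_dist (itr (vP v n) (s + 1))) U₁
      (fun y => kosOne_ne D hK0 hKp hKv hKη y) (Nat.lt_succ_self s) h2
  obtain ⟨s, hs⟩ := exists_of_tel M (v n) (v n) U₀ e 0 (hW.eq_of_tgt _ _)
  rw [itr_zero, Category.comp_id] at hs
  exact he s hs

/-- **(F4), the abstract product trick**, for a `K` which detects modules. -/
theorem acyclic_of_blue {n : ℕ} (hv : InvData P p (n + 2) v) (h0 : InvRel P v n)
    (hreg : ∀ A : T, IsSphere A → GoodReg 0 (n + 2) (fun k => pc A (vP v k)))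
    {J : Type} (f : J → (P ⟶ P ⊗ P)) (linf : ∀ a, Lin (f a)) (free : IsIso (Sigma.desc f))
    {K₁ : T} (hK0 : ¬ IsZero K₁) (hKp : p • 𝟙 K₁ = 0)
    (hKv : ∀ i, i < n + 1 → K₁ ◁ vP v i = 0) (hKη : SM K₁ η[P])
    {X Y : T} (hX : ∀ (L : ℕ) (N : T) (M : ModStr P N), ClassM v n L M → Acyclic N X)
    (hB : Blue v n X Y) (hY : Dz Y) {K : T}
    (hF : ¬ Acyclic K Y → ∀ W : T, IsZero (W ⊗ Y) → Acyclic K W)
    (hK : ∀ (N : T) (M : ModStr P N), (∀ k < n, IsNilpotent (M.sm (v k))) →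
      IsIso (M.smul (v n)) → (∀ m : ℤ, IsCoprime m p → IsIso (m • 𝟙 N)) → Acyclic K N →
      IsZero N) : Acyclic K Y := by
  refine acyclic_of_blue' hv h0 hreg f linf free hK0 hKp hKv hKη hX hB hY hF ?_
  intro N M L hL U₀ hKW
  have hMk : ∀ k < n, ((prodM M).sm (v k)) ^ L = 0 := fun k hk => prodM_pow hL k hk
  have hiso : IsIso (((prodM M).tensorRight U₀.obj).smul (v n)) :=
    isIso_a2 _ v n h0 (fun k hk => ⟨L, hMk k hk⟩) U₀
  have hnil : ∀ k < n, IsNilpotent (((prodM M).tensorRight U₀.obj).sm (v k)) :=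
    fun k hk => isNilpotent_tensorRight (prodM M) _ _ ⟨L, hMk k hk⟩
  refine hK _ _ hnil hiso (fun a ha => ?_) hKW
  refine isIso_zsmul_tensor (isIso_zsmul_prod fun Q => ?_) _
  obtain ⟨L', hL'⟩ := exists_pow_zsmul hv.v0 (hL Q)
  exact isIso_zsmul_of_pow hL' ha

end Vale.Agent.P241.H125
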