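import Vale.Agent.P241.H125.UBBound
import Vale.Agent.P241.H125.UBInst

/-!
# P241, block UB-K, part 10: the rational Eilenberg-Mac Lane spectrum detects the modules of the
product trick

`isZero_prod` : `P` the periodic `MU`, `N_0, N_1, …` a sequence of `P`-modules which are killed by
powers of `p`, `V` an object such that `p` is invertible on `(∏ N_Q) ⊗ V`. Then
`K ⊗ ((∏ N_Q) ⊗ V) = 0` implies `(∏ N_Q) ⊗ V = 0` for the rational Eilenberg-Mac Lane spectrum `K`.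

Indeed `∏ MU / p ^ e_Q` acts on `∏ N_Q`, and after inverting `p` it is `∏ (H ⊗ MU / p ^ e_Q)`, a
retract of its tensor product with the integral Eilenberg-Mac Lane spectrum `H`.
-/

open CategoryTheory MonoidalCategory Limits Pretriangulated MonObj

set_option linter.unusedSectionVars false

universe v u

namespace Vale.Agent.P241.H125

open Vale.Agent.P251.T Vale.Agent.P251.S Vale.Agent.P251.M Vale.Agent.P251.X
open Vale.Agent.P251.Z Vale.Agent.P251.F Vale.Agent.P251.I Vale.Agent.P093.N0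
open Vale.Agent.P251 Vale.Agent.P241.KP EvenSpheres

variable {T : Type u} [Category.{v} T] [Preadditive T] [HasZeroObject T]
    [HasShift T ℤ] [∀ n : ℤ, (shiftFunctor T n).Additive] [Pretriangulated T] [IsTriangulated T]
    [MonoidalCategory T] [SymmetricCategory T] [TensorTriangulated T] [MonoidalClosed T]
    [HasCoproducts.{0} T] [HasProducts.{0} T] [StableCat T]

/-! ### The integral Eilenberg-Mac Lane spectrum -/

theorem bigCell_unit : BigCell T 0 (𝟙_ T) :=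
  BigCell.of_iso ((shiftFunctorZero T ℤ).app (𝟙_ T)) (BigCell.sphere 0 le_rfl)

/-- The integral Eilenberg-Mac Lane spectrum, as a commutative monoid. -/
theorem exists_HZ_mon [LocallySmall.{0} T] (F : SpaceFunctor T) :
    ∃ (H : T) (_ : MonObj H) (_ : IsCommMonObj H), CofIn (BigCell T 2) η[H] ∧
      (∀ k : ℤ, k ≠ 0 → ∀ g : (𝟙_ T)⟦k⟧ ⟶ H, g = 0) ∧
      (∀ f : 𝟙_ T ⟶ H, ∃ m : ℤ, f = m • η[H]) ∧
      (∀ m : ℤ, m • η[H] = 0 → m = 0) := by
  obtain ⟨H, e, hc, hp⟩ := exists_HZ (T := T)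
  obtain ⟨J, a, b, D, hJ⟩ := hc
  have hJ' : Conn 2 J := hJ.conn (unit_conn F) (fun Y k f => StableCat.compact k Y f)
  have hpos : ∀ k : ℤ, k ≠ 0 → ∀ g : (𝟙_ T)⟦k⟧ ⟶ H, g = 0 := by
    intro k hk g
    rcases lt_or_gt_of_ne hk with h | h
    · exact conn_ring F D hJ' k h g
    · exact hp k (by omega) g
  have hint : ∀ f : 𝟙_ T ⟶ H, ∃ m : ℤ, f = m • e := exists_int_ring F D hJ'
  have hinj : ∀ m : ℤ, m • e = 0 → m = 0 := eq_zero_of_zsmul_unit F D hJ'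
  have hH : BigCell T 0 H := BigCell.ext _ D bigCell_unit (hJ.mono (by norm_num))
  have hR : ∀ W, BigCell T 0 W → Restr e W := fun W hW =>
    bij_of_cofIn hpos (CofIn.whiskerRight (P := BigCell T 2) (bigCell_extClosed 2) W
      (fun X hX => hW.tensor hX 2 (by norm_num)) ⟨J, a, b, D, hJ⟩)
  obtain ⟨i1, i2, he⟩ := exists_commMon e (hR _ bigCell_unit) (hR _ hH)
    (hR _ (hH.tensor hH 0 (by norm_num)))
  subst he
  exact ⟨H, i1, i2, ⟨J, a, b, D, hJ⟩, hpos, hint, hinj⟩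

/-- The map `MU ⟶ H`. -/
theorem exists_ringHom (D : MUData T) {H : T} [MonObj H]
    (hpos : ∀ k : ℤ, k ≠ 0 → ∀ g : (𝟙_ T)⟦k⟧ ⟶ H, g = 0) :
    ∃ k : D.R ⟶ H, IsMonHom k := by
  obtain ⟨J, a, b, hJ⟩ := distinguished_cocone_triangle (η[D.R] : 𝟙_ T ⟶ D.R)
  have hJ2 := D.conn J a b hJ
  have hR : BigCell T 0 D.R := BigCell.ext _ hJ bigCell_unit (hJ2.mono (by norm_num))
  have hc : CofIn (BigCell T 2) (η[D.R] : 𝟙_ T ⟶ D.R) := ⟨J, a, b, hJ, hJ2⟩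
  obtain ⟨k, hk⟩ := (bij_of_cofIn hpos hc).2 η[H]
  dsimp only at hk
  refine ⟨k, ⟨hk, ?_⟩⟩
  have hc' : CofIn (BigCell T 2) (η[D.R] ▷ D.R) :=
    CofIn.whiskerRight (P := BigCell T 2) (bigCell_extClosed 2) D.R
      (fun X hX => hR.tensor hX 2 (by norm_num)) hc
  apply (bij_of_cofIn hpos hc').1
  dsimp only
  rw [← Category.assoc, MonObj.one_mul, MonoidalCategory.tensorHom_def, Category.assoc,
    ← comp_whiskerRight_assoc, hk, ← whisker_exchange_assoc, MonObj.one_mul,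
    leftUnitor_naturality]

/-! ### Rational objects -/

theorem isIso_zsmul_mul {N : T} {a b : ℤ} (ha : IsIso (a • 𝟙 N)) (hb : IsIso (b • 𝟙 N)) :
    IsIso ((a * b) • 𝟙 N) := by
  have h1 : (a * b) • 𝟙 N = (a • 𝟙 N) ≫ (b • 𝟙 N) := by
    rw [Preadditive.zsmul_comp, Category.id_comp, smul_smul]
  rw [h1]
  infer_instance

/-- rational objects from `p` and the integers prime to `p` -/
theorem rat_of {p : ℕ} [Fact p.Prime] {N : T} (hp : IsIso ((p : ℤ) • 𝟙 N))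
    (hc : ∀ m : ℤ, IsCoprime m (p : ℤ) → IsIso (m • 𝟙 N)) : Rat N := by
  intro m hm
  have hpow : ∀ e : ℕ, IsIso (((p : ℤ) ^ e) • 𝟙 N) := by
    intro e
    induction e with
    | zero => rw [pow_zero, one_smul]; infer_instance
    | succ e ih => rw [pow_succ]; exact isIso_zsmul_mul ih hp
  obtain ⟨e, c, hc1, hc2⟩ := Nat.exists_eq_pow_mul_and_not_dvd (Int.natAbs_ne_zero.2 hm) p
    (Fact.out : p.Prime).ne_one
  have h1 : IsIso (((m.natAbs : ℕ) : ℤ) • 𝟙 N) := by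
    rw [hc2]
    push_cast
    refine isIso_zsmul_mul (hpow e) (hc _ ?_)
    rw [Int.isCoprime_iff_gcd_eq_one]
    have h2 : Nat.Coprime p c := ((Nat.Prime.coprime_iff_not_dvd (Fact.out : p.Prime)).2 hc1)
    exact h2.symm
  rcases Int.natAbs_eq m with h | h
  · rw [h]
    exact h1
  · have h2 : IsIso ((-1 : ℤ) • 𝟙 N) := ⟨(-1 : ℤ) • 𝟙 N, by simp, by simp⟩
    rw [h, ← neg_one_mul]
    exact isIso_zsmul_mul h2 h1

/-! ### The action of `∏ MU / p ^ e_Q` -/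

/-- `N` is a module over `R / p ^ e` (without associativity) if `p ^ e = 0` on `N`. -/
theorem exists_act {R N : T} {c : ℤ} {C : T} {q : R ⟶ C} {δ : C ⟶ R⟦(1 : ℤ)⟧}
    (hC : Triangle.mk (c • 𝟙 R) q δ ∈ distTriang T) (act : R ⊗ N ⟶ N) (hN : c • 𝟙 N = 0) :
    ∃ a : C ⊗ N ⟶ N, q ▷ N ≫ a = act := by
  have h1 : (N ◁ (c • 𝟙 R)) ≫ (β_ N R).hom ≫ act = 0 := by
    rw [whiskerLeft_zsmul', whiskerLeft_id, Preadditive.zsmul_comp, Category.id_comp,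
      ← Preadditive.comp_zsmul]
    have h2 : c • act = act ≫ (c • 𝟙 N) := by rw [Preadditive.comp_zsmul, Category.comp_id]
    rw [h2, hN, comp_zero, comp_zero]
  obtain ⟨a', ha'⟩ : ∃ a' : N ⊗ C ⟶ N, (β_ N R).hom ≫ act = N ◁ q ≫ a' :=
    Triangle.yoneda_exact₂ _ (TensorTriangulated.distinguished N _ hC) _ h1
  refine ⟨(β_ C N).hom ≫ a', ?_⟩
  rw [BraidedCategory.braiding_naturality_left_assoc, ← ha', SymmetricCategory.symmetry_assoc]

/-- a unital action gives a retract -/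
theorem isZero_of_act {W N V : T} (u : 𝟙_ T ⟶ W) (a : W ⊗ N ⟶ N)
    (h : u ▷ N ≫ a = (λ_ N).hom) (h0 : IsZero (W ⊗ (N ⊗ V))) : IsZero (N ⊗ V) := by
  refine isZero_retract ((λ_ (N ⊗ V)).inv ≫ u ▷ (N ⊗ V)) ((α_ W N V).inv ≫ a ▷ V) ?_ h0
  rw [Category.assoc, associator_inv_naturality_left_assoc, ← comp_whiskerRight, h]
  simp

/-- products of modules over a monoid are modules -/
theorem isZero_of_isZero_tensor {H : T} [MonObj H] {X : ℕ → T} {N : T} (h0 : IsZero (H ⊗ N)) :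
    IsZero (N ⊗ ∏ᶜ fun Q => H ⊗ X Q) := by
  let W := ∏ᶜ fun Q => H ⊗ X Q
  let r : H ⊗ W ⟶ W := Pi.lift fun Q => H ◁ Pi.π (fun Q => H ⊗ X Q) Q ≫ (α_ H H (X Q)).inv ≫
    μ[H] ▷ X Q
  have h1 : jH H W ≫ r = 𝟙 W := by
    refine Pi.hom_ext _ _ fun Q => ?_
    rw [Category.assoc, Pi.lift_π, Category.id_comp, ← Category.assoc, ← jH_natural]
    unfold jH
    rw [Category.assoc, Category.assoc, associator_inv_naturality_left_assoc,
      ← comp_whiskerRight, MonObj.one_mul]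
    simp
  have h2 : IsZero (N ⊗ (H ⊗ W)) :=
    (isZero_tensor_left W h0).of_iso ((α_ N H W).symm ≪≫ whiskerRightIso (β_ N H) W)
  exact isZero_retract (N ◁ jH H W) (N ◁ r) (by rw [← whiskerLeft_comp, h1, whiskerLeft_id]) h2

section main

variable {D : MUData T} {F : SpaceFunctor T} {e : F.S.obj CCF ≅ (stdEven T).L}
  (hU : MUUniv e D) (HA : MUAll D) {p : ℕ} [Fact p.Prime]

include hU HA in
/-- **The rational Eilenberg-Mac Lane spectrum detects the modules of the product trick.** -/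
theorem isZero_prod [LocallySmall.{0} T] {K : T} {eK : 𝟙_ T ⟶ K}
    (h0 : ∀ k : ℤ, k ≠ 0 → ∀ g : (𝟙_ T)⟦k⟧ ⟶ K, g = 0) (hne : eK ≠ 0)
    (hdiv : ∀ m : ℤ, m ≠ 0 → Function.Bijective (fun f : 𝟙_ T ⟶ K => m • f))
    (hgen : ∀ f : 𝟙_ T ⟶ K, ∃ a m : ℤ, m ≠ 0 ∧ m • f = a • eK)
    {N : ℕ → T} (M : ∀ Q, ModStr D.P (N Q)) (hN : ∀ Q, ∃ L : ℕ, ((p : ℤ) ^ L) • 𝟙 (N Q) = 0)
    {V : T} (hV : IsIso ((p : ℤ) • 𝟙 ((∏ᶜ N) ⊗ V))) (hz : IsZero (K ⊗ ((∏ᶜ N) ⊗ V))) :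
    IsZero ((∏ᶜ N) ⊗ V) := by
  classical
  obtain ⟨H, _, _, hc, hpos, hint, hinj⟩ := exists_HZ_mon F
  obtain ⟨k, _⟩ := exists_ringHom D (H := H) hpos
  have : HComm (stdEven T) H := hcomm_H hpos hint
  have : HComm (stdEven T) (H ⊗ D.R) := ⟨fun x y => mul_comm x y⟩
  -- the object is rational
  have hrat : Rat ((∏ᶜ N) ⊗ V) := by
    refine rat_of hV fun m hm => isIso_zsmul_tensor ?_ _
    refine isIso_zsmul_prod fun Q => ?_
    obtain ⟨L, hL⟩ := hN Q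
    exact isIso_zsmul_of_pow hL hm
  have hH : IsZero (H ⊗ ((∏ᶜ N) ⊗ V)) := isZero_HZ hc hpos hint h0 hne hdiv hgen hrat hz
  -- the rings `MU / p ^ e_Q`
  choose L hL using hN
  choose C q δ hC using fun Q => distinguished_cocone_triangle (((p : ℤ) ^ L Q) • 𝟙 D.R)
  obtain ⟨ii, hii⟩ : ∃ ii : D.R ⟶ D.P, η[D.R] ≫ ii = η[D.P] := by
    refine ⟨(ρ_ D.R).inv ≫ D.R ◁ η[(stdEven T).PS], ?_⟩
    change _ = (λ_ (𝟙_ T)).inv ≫ (η[D.R] ⊗ₘ η[(stdEven T).PS])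
    rw [MonoidalCategory.tensorHom_def, unitors_inv_equal, ← rightUnitor_inv_naturality_assoc]
  choose a ha using fun Q => exists_act (hC Q) (ii ▷ N Q ≫ (M Q).act) (hL Q)
  have hu : ∀ Q, (η[D.R] ≫ q Q) ▷ N Q ≫ a Q = (λ_ (N Q)).hom := by
    intro Q
    rw [comp_whiskerRight, Category.assoc, ha, ← comp_whiskerRight_assoc, hii]
    exact (M Q).one_act
  let u : 𝟙_ T ⟶ ∏ᶜ C := Pi.lift fun Q => η[D.R] ≫ q Q
  let A : (∏ᶜ C) ⊗ (∏ᶜ N) ⟶ ∏ᶜ N := Pi.lift fun Q => (Pi.π C Q ⊗ₘ Pi.π N Q) ≫ a Q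
  have hA : u ▷ (∏ᶜ N) ≫ A = (λ_ (∏ᶜ N)).hom := by
    refine Pi.hom_ext _ _ fun Q => ?_
    rw [Category.assoc, Pi.lift_π, MonoidalCategory.tensorHom_def, Category.assoc,
      ← comp_whiskerRight_assoc, Pi.lift_π, ← whisker_exchange_assoc, hu,
      leftUnitor_naturality]
  refine isZero_of_act u A hA ?_
  -- the comparison with `∏ (H ⊗ MU / p ^ e_Q)`
  let j : (∏ᶜ C) ⟶ ∏ᶜ fun Q => H ⊗ C Q := Pi.lift fun Q => Pi.π C Q ≫ jH H (C Q)
  have hj : IsIso (((∏ᶜ N) ⊗ V) ◁ j) := by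
    refine isIso_of_tors j ?_ ?_ hrat
    · intro n x hx
      obtain ⟨m, hm, hb⟩ := exists_bound HA hU k hpos hint hinj (p := p) n
      refine ⟨m, hm, Pi.hom_ext _ _ fun Q => ?_⟩
      rw [zero_comp, Preadditive.zsmul_comp]
      refine (hb (L Q) (hC Q)).1 _ ?_
      have h1 : (x ≫ j) ≫ Pi.π (fun Q => H ⊗ C Q) Q = 0 := by rw [hx, zero_comp]
      rwa [Category.assoc, Pi.lift_π, ← Category.assoc] at h1
    · intro n y
      obtain ⟨m, hm, hb⟩ := exists_bound HA hU k hpos hint hinj (p := p) n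
      choose x hx using fun Q => (hb (L Q) (hC Q)).2 (y ≫ Pi.π (fun Q => H ⊗ C Q) Q)
      refine ⟨m, hm, Pi.lift x, Pi.hom_ext _ _ fun Q => ?_⟩
      rw [Preadditive.zsmul_comp, hx, Category.assoc, Pi.lift_π, ← Category.assoc, Pi.lift_π]
  have h1 : IsZero (((∏ᶜ N) ⊗ V) ⊗ ∏ᶜ C) :=
    (isZero_of_isZero_tensor (X := C) hH).of_iso (asIso (((∏ᶜ N) ⊗ V) ◁ j))
  exact h1.of_iso (β_ _ _)

include hU HA in
/-- **Height `0`.** -/
theorem f4_zero [LocallySmall.{0} T] {K K₁ : T} [MonObj K] [MonObj K₁]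
    (h0 : ∀ (k : ℤ) (g : (𝟙_ T)⟦k⟧ ⟶ K), k ≠ 0 → g = 0) (hne : η[K] ≠ 0)
    (hdiv : ∀ m : ℤ, m ≠ 0 → Function.Bijective (fun f : 𝟙_ T ⟶ K => m • f))
    (hgen : ∀ f : 𝟙_ T ⟶ K, ∃ a m : ℤ, m ≠ 0 ∧ m • f = a • η[K])
    (h₁ : H795.KA D p (0 + 1) K₁) {X Y : T} (hX : Acyclic K₁ X)
    (hB : Blue (D.vs p) 0 X Y) (hY : P093.N2.Dz Y) (hYb : KR.HasBas K Y) : Acyclic K Y := by
  refine f4_core' hU HA h₁ hX hB hY (fun hne W hW => acyclic_of_gfield hYb hne hW) ?_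
  intro N M L hL U₀ hz
  have hv := D.invData p 1
  refine isZero_prod hU HA (fun k hk g => h0 k g hk) hne hdiv hgen M
    (fun Q => exists_pow_zsmul hv.v0 (hL Q)) ?_ hz
  have h1 := isIso_a2 (prodM M) (D.vs p) 0 (invRel_self D p 0)
    (fun k hk => absurd hk (Nat.not_lt_zero k)) U₀
  have h2 : ((prodM M).tensorRight U₀.obj).smul (D.vs p 0) =
      (p : ℤ) • 𝟙 ((∏ᶜ N) ⊗ U₀.obj) := smul_v0 hv.v0 _
  exact h2 ▸ h1

end main

section morava

open Vale.Agent.P251.St Vale.Agent.P251.St.SHCat Vale.Agent.P241.St Vale.Agent.P241.Final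
open Vale.Agent.P241.H795 Vale.Agent.P093.N2

variable {T : SHCat} {S : Susp T}

/-- `F4Stmt` of `H891/Cyclic.lean` for the height `0`. -/
theorem f4_of_zero (X : Ctx S) {p : ℕ} [Fact p.Prime] {K : ℕ → RingA T}
    (hK : ∀ i, IsMoravaK S p i (K i)) {Z Y : Space}
    (fY : Vale.Agent.P251.St.FC Y)
    (hB : Blue (P := X.D.P) (X.D.vs p) 0 (S.obj Z) (S.obj Y))
    (hZ : Vale.Agent.P251.St.Acyclic (K (0 + 1)).obj (S.obj Z)) :
    Vale.Agent.P251.St.Acyclic (K 0).obj (S.obj Y) := by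
  have h := BD2.isRationalA_of (hK 0)
  obtain ⟨h₁⟩ := nonempty_KA X.muUniv (Nat.succ_ne_zero 0) (hK (0 + 1))
  have f : Vale.Agent.P251.G.LC.FC (toLC Y) := (fc_iff Y).1 fY
  have hG : KR.GField (K 0).obj 0 := BD2.gfield_rat h.conc h.ne (BD2.exists_div h) h.gen
  rw [isZero_iff] at hZ ⊢
  exact f4_zero X.muUniv X.muAll h.conc h.ne h.div h.gen h₁ hZ hB
    (Dz.space S.toSpaceFunctor ⟨toLC Y, f⟩) (hasBas_space hG S.toSpaceFunctor ⟨toLC Y, f⟩)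

/-- **`F4Stmt` of `H891/Cyclic.lean`** : from `Blue` to Morava `K`-theories, for all heights. -/
theorem f4 (X : Ctx S) {p : ℕ} [Fact p.Prime] {K : ℕ → RingA T}
    (hK : ∀ i, IsMoravaK S p i (K i)) (n : ℕ) {Z Y : Space}
    (fY : Vale.Agent.P251.St.FC Y)
    (hB : Blue (P := X.D.P) (X.D.vs p) n (S.obj Z) (S.obj Y))
    (hZ : Vale.Agent.P251.St.Acyclic (K (n + 1)).obj (S.obj Z)) :
    Vale.Agent.P251.St.Acyclic (K n).obj (S.obj Y) := by
  rcases Nat.eq_zero_or_pos n with rfl | hn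
  · exact f4_of_zero X hK fY hB hZ
  · exact f4_of_pos X hK hn.ne' fY hB hZ

end morava

end Vale.Agent.P241.H125
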