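import Vale.Agent.P251.Z.KComparison

/-!
# P241, block UB-K, part 1: regularity and non-vanishing

`P` a commutative ring object, `v_0 = p, v_1, …` regular on `π_* P`. For the Koszul object
`X = kos n` and the cofibre `C` of `v_n ^ Q : P ⟶ P` the class `v_n ^ m v_{n+1} ^ s 1` in
`π_0 (X ⊗ (C ⊗ P))` is non-zero for `m < Q`, provided that `1` is not divisible by `v_n` in
`π_0 (X ⊗ P)`.
-/

open CategoryTheory MonoidalCategory Limits Pretriangulated MonObj

set_option linter.unusedSectionVars false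

universe v u

namespace Vale.Agent.P241.H125

open Vale.Agent.P251.T Vale.Agent.P251.S Vale.Agent.P251.Z

section alg

variable {E : Type*} [AddCommGroup E] {n : ℕ} {v : ℕ → E →+ E}

/-- the step: only `v_n, v_{n+1}` matter -/
theorem mem_VI_of_zero {n : ℕ} (hz : ∀ j < n, ∀ x, v j x = 0) {x : E} :
    x ∈ VI v (n + 1) ↔ ∃ y, x = v n y := by
  constructor
  · rintro ⟨y, rfl⟩
    refine ⟨y n, ?_⟩
    rw [Finset.sum_range_succ, Finset.sum_eq_zero fun j hj => hz j (Finset.mem_range.1 hj) _,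
      zero_add]
  · rintro ⟨y, rfl⟩
    exact apply_mem_VI v (Nat.lt_succ_self n) y

theorem reg_inj_iter {h : ℕ} (H : GoodReg n h v) (hn : n < h) (m : ℕ) {x : E}
    (hx : (v n)^[m] x = 0) : x = 0 := by
  induction m with
  | zero => exact hx
  | succ m ih =>
    rw [Function.iterate_succ_apply'] at hx
    exact ih (H.injective hn hx)

/-- `v_{n+1}` is injective modulo `v_n` -/
theorem reg_dvd_of_dvd (H : GoodReg n (n + 2) v) (s : ℕ) {x : E}
    (hx : ∃ y, (v (n + 1))^[s] x = v n y) : ∃ y, x = v n y := by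
  induction s with
  | zero => exact hx
  | succ s ih =>
    rw [Function.iterate_succ_apply'] at hx
    refine ih ?_
    exact (mem_VI_of_zero H.zero).1 (H.reg (n + 1) (Nat.le_succ n) (by omega) _
      ((mem_VI_of_zero H.zero).2 hx))

theorem iter_comm {v : ℕ → E →+ E} (hc : ∀ j k x, v j (v k x) = v k (v j x)) (i j s m : ℕ)
    (x : E) : (v i)^[s] ((v j)^[m] x) = (v j)^[m] ((v i)^[s] x) := by
  have h : Function.Commute (v i) (v j) := fun x => hc i j x
  exact (h.iterate_iterate s m) x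

/-- `v_{n+1}^s v_n^m e ∈ v_n^Q E` with `m < Q` implies that `v_n` divides `e`. -/
theorem reg_dvd_one (H : GoodReg n (n + 2) v) {s m Q : ℕ} (hm : m < Q) {e z : E}
    (h : (v (n + 1))^[s] ((v n)^[m] e) = (v n)^[Q] z) : ∃ y, e = v n y := by
  refine reg_dvd_of_dvd H s ⟨(v n)^[Q - m - 1] z, ?_⟩
  have h1 : (v n)^[m] ((v (n + 1))^[s] e - (v n)^[Q - m] z) = 0 := by
    have h2 : (v n)^[m] ((v (n + 1))^[s] e - (v n)^[Q - m] z) =
        (v n)^[m] ((v (n + 1))^[s] e) - (v n)^[m] ((v n)^[Q - m] z) :=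
      iterate_map_sub (v n) m _ _
    rw [h2, ← iter_comm H.comm, h, ← Function.iterate_add_apply,
      show m + (Q - m) = Q by omega, sub_self]
  have h3 := reg_inj_iter H (by omega) m h1
  rw [sub_eq_zero] at h3
  rw [h3, ← Function.iterate_succ_apply' (v n), show (Q - m - 1).succ = Q - m by omega]

end alg

section main

variable {T : Type u} [Category.{v} T] [Preadditive T] [HasZeroObject T]
    [HasShift T ℤ] [∀ n : ℤ, (shiftFunctor T n).Additive] [Pretriangulated T] [IsTriangulated T]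
    [MonoidalCategory T] [SymmetricCategory T] [TensorTriangulated T] [MonoidalClosed T]
    [HasCoproducts.{0} T] [HasProducts.{0} T] [StableCat T]

variable {P : T} [MonObj P] [IsCommMonObj P] {p : ℤ} {h : ℕ} {v : ℕ → (𝟙_ T ⟶ P)}

/-- **Regularity on the Koszul objects.** -/
theorem reg_kos (hv : InvData P p h v)
    (hreg : ∀ A : T, IsSphere A → GoodReg 0 h (fun k => pc A (vP v k)))
    {J : Type} (f : J → (P ⟶ P ⊗ P)) (linf : ∀ a, Lin (f a)) (free : IsIso (Sigma.desc f))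
    (D : KosData P p h v) {i : ℕ} (hi : i ≤ h) (A : T) (hA : IsSphere A) :
    GoodReg i h (fun k => pc A (D.kos i ◁ vP v k)) := by
  obtain ⟨K, hK⟩ := HasZeroObject.zero (C := T)
  have hz : ∀ X : T, IsZero (K ⊗ X) := fun X => by
    rw [IsZero.iff_id_eq_zero, ← id_whiskerRight, hK.eq_of_src (𝟙 K) 0,
      MonoidalPreadditive.zero_whiskerRight]
  have R : RevData P p h v K (fun e : Empty => e.elim : Empty → (P ⟶ K ⊗ P)) f := {
    inv := hv
    char := hK.eq_of_src _ _
    zero := fun _ _ _ => (hz P).eq_of_src _ _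
    unit := ⟨0, (hz P).eq_of_src _ _, (hz P).eq_of_src _ _⟩
    linφ := fun e => e.elim
    linf := linf
    free := free
    reg := hreg
    map := fun A _ => ⟨fun e => e.elim, fun y => ⟨0, 0, by
      rw [Finsupp.sum_zero_index]
      exact (hz P).eq_of_tgt _ _⟩, fun _ _ e => e.elim⟩ }
  obtain ⟨G, Z, _, r, L⟩ := R.exists_level D i hi
  exact L.reg A hA

theorem pc_itr (A : T) {X : T} (f : X ⟶ X) (m : ℕ) (x : A ⟶ X) :
    x ≫ itr f m = (pc A f)^[m] x := (pc_iterate A f m x).symm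

/-- right multiplication by `v_n ^ Q` on `X ⊗ (P ⊗ P)` has values in `v_n ^ Q` -/
theorem exists_left {X : T} {n : ℕ} (hinv : InvRel P v n)
    (hz : ∀ A : T, IsSphere A → ∀ j < n, ∀ x : A ⟶ X ⊗ (P ⊗ P), x ≫ X ◁ (P ◁ vP v j) = 0)
    (Q : ℕ) {A : T} (hA : IsSphere A) (z : A ⟶ X ⊗ (P ⊗ P)) :
    ∃ z' : A ⟶ X ⊗ (P ⊗ P), z ≫ X ◁ (itr (vP v n) Q ▷ P) = z' ≫ X ◁ (P ◁ itr (vP v n) Q) := by
  obtain ⟨u, c, hu, hw⟩ := InvRel.swap hinv
  have hstep : ∀ x : A ⟶ X ⊗ (P ⊗ P),
      x ≫ X ◁ (vP v n ▷ P) = (x ≫ X ◁ u) ≫ X ◁ (P ◁ vP v n) := by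
    intro x
    unfold vP
    rw [hw, MonoidalPreadditive.whiskerLeft_add, Preadditive.comp_add, whiskerLeft_sum,
      Preadditive.comp_sum, Finset.sum_eq_zero, add_zero, whiskerLeft_comp, Category.assoc]
    intro k hk
    rw [whiskerLeft_comp, ← Category.assoc]
    exact hz A hA k (Finset.mem_range.1 hk) (x ≫ X ◁ c k)
  induction Q generalizing z with
  | zero => exact ⟨z, by simp⟩
  | succ Q ih =>
    obtain ⟨z₁, h₁⟩ := ih (z ≫ X ◁ u)
    refine ⟨z₁, ?_⟩
    rw [itr_succ', comp_whiskerRight, whiskerLeft_comp, ← Category.assoc, hstep,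
      Category.assoc, ← whiskerLeft_comp, whisker_exchange, whiskerLeft_comp, ← Category.assoc,
      h₁, Category.assoc, ← whiskerLeft_comp, ← whiskerLeft_comp, ← itr_succ, itr_succ']

end main

end Vale.Agent.P241.H125
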