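import Vale.Agent.P241.H125.UBField
import Vale.Agent.P251.X.HQ

/-!
# P241, block UB-K, part 7: torsion and rational objects

* `Tors X` : the homotopy of `X` is torsion; `Rat N` : the integers `m ≠ 0` are invertible on `N`.
* `isZero_of_tors` : `N ⊗ X = 0`.
* `isIso_of_tors` : a morphism with torsion kernel and cokernel on homotopy becomes an isomorphism
  after tensoring with a rational object.
* `isZero_HZ` : `K ⊗ N = 0` implies `H ⊗ N = 0` for `K` the rational Eilenberg-Mac Lane spectrum,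
  `H` the integral one and `N` rational.
-/

open CategoryTheory MonoidalCategory Limits Pretriangulated MonObj

set_option linter.unusedSectionVars false

universe v u

namespace Vale.Agent.P241.H125

open Vale.Agent.P251.T Vale.Agent.P251.S Vale.Agent.P251.M Vale.Agent.P251.X
open Vale.Agent.P251.Z

variable {T : Type u} [Category.{v} T] [Preadditive T] [HasZeroObject T]
    [HasShift T ℤ] [∀ n : ℤ, (shiftFunctor T n).Additive] [Pretriangulated T] [IsTriangulated T]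
    [MonoidalCategory T] [SymmetricCategory T] [TensorTriangulated T] [MonoidalClosed T]
    [HasCoproducts.{0} T] [HasProducts.{0} T] [StableCat T]

/-- All the homotopy of `X` is torsion. -/
def Tors (X : T) : Prop := ∀ (k : ℤ) (x : (𝟙_ T)⟦k⟧ ⟶ X), ∃ m : ℤ, m ≠ 0 ∧ m • x = 0

/-- The integers `m ≠ 0` are invertible on `N`. -/
def Rat (N : T) : Prop := ∀ m : ℤ, m ≠ 0 → IsIso (m • 𝟙 N)

theorem Rat.eq_zero {N A : T} (hN : Rat N) {m : ℤ} (hm : m ≠ 0) {x : A ⟶ N} (h : m • x = 0) :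
    x = 0 := by
  have := hN m hm
  rw [← cancel_mono (m • 𝟙 N), Preadditive.comp_zsmul, Category.comp_id, h, zero_comp]

theorem Rat.exists_div {N A : T} (hN : Rat N) {m : ℤ} (hm : m ≠ 0) (x : A ⟶ N) :
    ∃ y : A ⟶ N, m • y = x := by
  have := hN m hm
  refine ⟨x ≫ inv (m • 𝟙 N), ?_⟩
  have h1 : m • (x ≫ inv (m • 𝟙 N)) = x ≫ inv (m • 𝟙 N) ≫ (m • 𝟙 N) := by
    rw [Preadditive.comp_zsmul, Category.comp_id, Preadditive.comp_zsmul]
  rw [h1, IsIso.inv_hom_id, Category.comp_id]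

theorem Rat.of_iso {N N' : T} (hN : Rat N) (e : N ≅ N') : Rat N' := by
  intro m hm
  have := hN m hm
  have h1 : m • 𝟙 N' = e.inv ≫ (m • 𝟙 N) ≫ e.hom := by
    rw [Preadditive.zsmul_comp, Category.id_comp, Preadditive.comp_zsmul, e.inv_hom_id]
  rw [h1]
  infer_instance

section tel

variable (U : Tel (X := fun _ : ℕ => 𝟙_ T) (mulSeq (𝟙_ T)))

theorem whiskerLeft_mulSeq (N : T) (n : ℕ) :
    N ◁ mulSeq (𝟙_ T) n = ((n + 1 : ℕ) : ℤ) • 𝟙 (N ⊗ 𝟙_ T) := by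
  unfold mulSeq
  rw [whiskerLeft_zsmul', whiskerLeft_id]

theorem trT_whisker (N : T) (n k : ℕ) :
    trT (X := fun _ : ℕ => N ⊗ 𝟙_ T) (fun n => N ◁ mulSeq (𝟙_ T) n) n k =
      (((n + 1).ascFactorial k : ℕ) : ℤ) • 𝟙 (N ⊗ 𝟙_ T) := by
  induction k with
  | zero => simp
  | succ k ih =>
    rw [trT_succ, ih, Nat.ascFactorial_succ, Preadditive.zsmul_comp, Category.id_comp,
      whiskerLeft_mulSeq, smul_smul]
    congr 1
    push_cast
    ring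

theorem dvd_asc {m : ℤ} (hm : m ≠ 0) (n : ℕ) :
    m ∣ (((n + 1).ascFactorial m.natAbs : ℕ) : ℤ) := by
  rw [← Int.natAbs_dvd, Int.natCast_dvd_natCast]
  exact (Nat.dvd_factorial (Int.natAbs_pos.2 hm) le_rfl).trans
    (Nat.factorial_dvd_ascFactorial _ _)

theorem isZero_tel_of_tors {X : T} (hX : Tors X) : IsZero (X ⊗ U.obj) := by
  refine StableCat.generator _ fun k f => ?_
  obtain ⟨n, a, ha⟩ := (U.tensL X).exists_factor (cpt_sphere k) f
  rw [← ha]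
  obtain ⟨m, hm, h1⟩ := hX k (a ≫ (ρ_ X).hom)
  have h2 : m • a = 0 := by
    rw [← cancel_mono (ρ_ X).hom, Preadditive.zsmul_comp, h1, zero_comp]
  obtain ⟨c, hc⟩ := dvd_asc hm n
  have h3 : X ◁ U.ι n = (((n + 1).ascFactorial m.natAbs : ℕ) : ℤ) •
      (X ◁ U.ι (n + m.natAbs)) := by
    rw [← whiskerLeft_zsmul', smul_ι]
  change a ≫ X ◁ U.ι n = 0
  rw [h3, Preadditive.comp_zsmul, hc, mul_comm, mul_smul, ← Preadditive.zsmul_comp, h2,
    zero_comp, smul_zero]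

theorem isIso_tel_of_rat {N : T} (hN : Rat N) : IsIso (N ◁ U.ι 0) := by
  have hN' : Rat (N ⊗ 𝟙_ T) := hN.of_iso (ρ_ N).symm
  refine isIso_of_bijective_hom (fun n : ℤ => (𝟙_ T)⟦n⟧)
    (fun k k' hk => ⟨((shiftFunctorAdd' T k 1 k' hk).app _).symm⟩) StableCat.generator _ ?_ ?_
  · intro k x hx
    obtain ⟨m, hm⟩ := (U.tensL N).exists_eq_zero (cpt_sphere k) x hx
    rw [trT_whisker, Preadditive.comp_zsmul] at hm
    exact hN'.eq_zero (asc_ne 0 m) ((congrArg _ (Category.comp_id x).symm).trans hm)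
  · intro k y
    obtain ⟨n, a, ha⟩ := (U.tensL N).exists_factor (cpt_sphere k) y
    obtain ⟨b, hb⟩ := hN'.exists_div (asc_ne 0 n) a
    refine ⟨b, ?_⟩
    rw [← ha]
    change b ≫ N ◁ U.ι 0 = a ≫ N ◁ U.ι n
    rw [← smul_ι_zero U n, whiskerLeft_zsmul', Preadditive.comp_zsmul, ← Preadditive.zsmul_comp,
      hb]

end tel

theorem isZero_of_tors {X N : T} (hX : Tors X) (hN : Rat N) : IsZero (N ⊗ X) := by
  let U : Tel (X := fun _ : ℕ => 𝟙_ T) (mulSeq (𝟙_ T)) := tel _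
  have := isIso_tel_of_rat U hN
  have h1 : IsZero ((X ⊗ U.obj) ⊗ N) := isZero_tensor_left N (isZero_tel_of_tors U hX)
  refine h1.of_iso ?_
  exact β_ N X ≪≫ whiskerLeftIso X ((ρ_ N).symm ≪≫ asIso (N ◁ U.ι 0) ≪≫ β_ N U.obj) ≪≫
    (α_ X U.obj N).symm

/-- **Rational isomorphisms.** -/
theorem isIso_of_tors {X Y : T} (f : X ⟶ Y)
    (hker : ∀ (k : ℤ) (x : (𝟙_ T)⟦k⟧ ⟶ X), x ≫ f = 0 → ∃ m : ℤ, m ≠ 0 ∧ m • x = 0)
    (hcok : ∀ (k : ℤ) (y : (𝟙_ T)⟦k⟧ ⟶ Y), ∃ m : ℤ, m ≠ 0 ∧ ∃ x, m • y = x ≫ f)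
    {N : T} (hN : Rat N) : IsIso (N ◁ f) := by
  obtain ⟨Z, g, h, hT⟩ := distinguished_cocone_triangle f
  have hZ : Tors Z := by
    intro k z
    have h1 : (z ≫ h) ≫ f⟦(1 : ℤ)⟧' = 0 := by
      have this : h ≫ f⟦(1 : ℤ)⟧' = 0 := comp_distTriang_mor_zero₃₁ _ hT
      rw [Category.assoc, this, comp_zero]
    let e : ((𝟙_ T)⟦k - 1⟧)⟦(1 : ℤ)⟧ ≅ (𝟙_ T)⟦k⟧ :=
      ((shiftFunctorAdd' T (k - 1) 1 k (by ring)).app _).symm
    obtain ⟨x, hx⟩ := (shiftFunctor T (1 : ℤ)).map_surjective (e.hom ≫ z ≫ h)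
    have h3 : x ≫ f = 0 := by
      apply (shiftFunctor T (1 : ℤ)).map_injective
      rw [Functor.map_comp, hx, Category.assoc, h1, comp_zero, Functor.map_zero]
    obtain ⟨m, hm, h4⟩ := hker _ x h3
    have h5 : (m • z) ≫ h = 0 := by
      rw [← cancel_epi e.hom, comp_zero, Preadditive.zsmul_comp, Preadditive.comp_zsmul, ← hx,
        ← Functor.map_zsmul, h4, Functor.map_zero]
    obtain ⟨y, hy⟩ : ∃ y : (𝟙_ T)⟦k⟧ ⟶ Y, m • z = y ≫ g :=
      Triangle.coyoneda_exact₃ _ hT (m • z) h5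
    obtain ⟨m', hm', x', hx'⟩ := hcok _ y
    refine ⟨m' * m, mul_ne_zero hm' hm, ?_⟩
    have h6 : f ≫ g = 0 := comp_distTriang_mor_zero₁₂ _ hT
    rw [mul_smul, hy]
    rw [← Preadditive.zsmul_comp, hx', Category.assoc, h6, comp_zero]
  exact (Triangle.isZero₃_iff_isIso₁ _ (TensorTriangulated.distinguished N _ hT)).1
    (isZero_of_tors hZ hN)

/-- **The integral and the rational Eilenberg-Mac Lane spectrum.** -/
theorem isZero_HZ {H K : T} {e : 𝟙_ T ⟶ H} (hc : CofIn (BigCell T 2) e)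
    (hpos : ∀ k : ℤ, k ≠ 0 → ∀ g : (𝟙_ T)⟦k⟧ ⟶ H, g = 0)
    (hint : ∀ f : 𝟙_ T ⟶ H, ∃ m : ℤ, f = m • e)
    {eK : 𝟙_ T ⟶ K} (h0 : ∀ k : ℤ, k ≠ 0 → ∀ g : (𝟙_ T)⟦k⟧ ⟶ K, g = 0) (hne : eK ≠ 0)
    (hdiv : ∀ m : ℤ, m ≠ 0 → Function.Bijective (fun f : 𝟙_ T ⟶ K => m • f))
    (hgen : ∀ f : 𝟙_ T ⟶ K, ∃ a m : ℤ, m ≠ 0 ∧ m • f = a • eK)
    {N : T} (hN : Rat N) (hK : IsZero (K ⊗ N)) : IsZero (H ⊗ N) := by
  obtain ⟨κ, hκ⟩ := (bij_of_cofIn h0 hc).2 eK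
  dsimp only at hκ
  let ε : (𝟙_ T)⟦(0 : ℤ)⟧ ≅ 𝟙_ T := (shiftFunctorZero T ℤ).app (𝟙_ T)
  have h1 : IsIso (N ◁ κ) := by
    refine isIso_of_tors κ ?_ ?_ hN
    · intro k x hx
      rcases eq_or_ne k 0 with rfl | hk
      · refine ⟨1, one_ne_zero, ?_⟩
        obtain ⟨m, hm⟩ := hint (ε.inv ≫ x)
        have h2 : m • eK = 0 := by
          rw [← hκ, ← Preadditive.zsmul_comp, ← hm, Category.assoc, hx, comp_zero]
        have h3 : m = 0 := by
          by_contra h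
          exact hne ((hdiv m h).1 (h2.trans (smul_zero m).symm))
        rw [h3, zero_smul] at hm
        rw [one_smul, ← cancel_epi ε.inv, hm, comp_zero]
      · exact ⟨1, one_ne_zero, by rw [hpos k hk x, smul_zero]⟩
    · intro k y
      rcases eq_or_ne k 0 with rfl | hk
      · obtain ⟨a, m, hm, h2⟩ := hgen (ε.inv ≫ y)
        refine ⟨m, hm, ε.hom ≫ (a • e), ?_⟩
        rw [Category.assoc, Preadditive.zsmul_comp, hκ, ← h2, Preadditive.comp_zsmul,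
          Iso.hom_inv_id_assoc]
      · exact ⟨1, one_ne_zero, 0, by rw [h0 k hk y, smul_zero, zero_comp]⟩
  have h2 : IsZero (N ⊗ K) := hK.of_iso (β_ N K)
  exact (h2.of_iso (asIso (N ◁ κ))).of_iso (β_ H N)

end Vale.Agent.P241.H125
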