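import Vale.Agent.P241.H125.UBProd

/-!
# P241, block UB-K, part 4: (F0)

If `X` is acyclic for the Koszul object of height `n + 1`, it is acyclic for all modules of
the class `ClassM v n L`. A retraction criterion for the field property.
-/

open CategoryTheory MonoidalCategory Limits Pretriangulated MonObj

set_option linter.unusedSectionVars false

universe v u

namespace Vale.Agent.P241.H125

open Vale.Agent.P251.T Vale.Agent.P251.S Vale.Agent.P251.Z Vale.Agent.P093.N2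

variable {T : Type u} [Category.{v} T] [Preadditive T] [HasZeroObject T]
    [HasShift T ℤ] [∀ n : ℤ, (shiftFunctor T n).Additive] [Pretriangulated T] [IsTriangulated T]
    [MonoidalCategory T] [SymmetricCategory T] [TensorTriangulated T] [MonoidalClosed T]
    [HasCoproducts.{0} T] [HasProducts.{0} T] [StableCat T]

variable {P : T} [MonObj P] {p : ℤ} {v : ℕ → (𝟙_ T ⟶ P)}

section F0

variable [IsCommMonObj P]

/-- **(F0)** -/
theorem acyclic_of_classM {n : ℕ} (hv : InvData P p (n + 1) v) (D : KosData P p (n + 1) v)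
    {X : T} (hX : Acyclic D.K X) {L : ℕ} {N : T} (M : ModStr P N) (hM : ClassM v n L M) :
    Acyclic N X := by
  refine acyclic_of_acyclic_K D M hv (by omega) ?_ hM.2.2 hX
  intro k hk
  rcases Nat.lt_succ_iff_lt_or_eq.1 hk with hk | rfl
  · exact ⟨L, hM.1 k hk⟩
  · exact hM.2.1

end F0

/-- The field property in the form used by `acyclic_of_blue`: `K` is a retract of a shift of
`K ⊗ Y`. -/
theorem acyclic_of_retract {K Y : T} {k : ℤ} (s : K ⟶ (K ⊗ Y)⟦k⟧) (r : (K ⊗ Y)⟦k⟧ ⟶ K)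
    (hsr : s ≫ r = 𝟙 K) (W : T) (hW : IsZero (W ⊗ Y)) : Acyclic K W := by
  have h1 : IsZero ((K ⊗ Y) ⊗ W) := by
    have h2 : IsZero (K ⊗ (W ⊗ Y)) := Functor.map_isZero (tensorLeft K) hW
    exact h2.of_iso (α_ K Y W ≪≫ whiskerLeftIso K (β_ Y W))
  have h3 : IsZero (W ⊗ (K ⊗ Y)⟦k⟧) := by
    have h4 : Acyclic W (K ⊗ Y) := h1.of_iso (β_ W (K ⊗ Y))
    exact acyclic_shift h4 k
  have h5 : IsZero ((K ⊗ Y)⟦k⟧ ⊗ W) := h3.of_iso (β_ _ _)
  change IsZero (K ⊗ W)
  rw [IsZero.iff_id_eq_zero]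
  have h6 : 𝟙 (K ⊗ W) = (s ▷ W) ≫ (r ▷ W) := by
    rw [← comp_whiskerRight, hsr, id_whiskerRight]
  rw [h6, h5.eq_of_tgt (s ▷ W) 0, zero_comp]

/-- a non-zero ring object with a ring map from `P`-like rings: `K ⊗ η` is split injective -/
theorem sm_of_act {K R : T} {η' : 𝟙_ T ⟶ R} (a : K ⊗ R ⟶ K) (h : K ◁ η' ≫ a = (ρ_ K).hom) :
    SM K η' :=
  ⟨a ≫ (ρ_ K).inv, by rw [← Category.assoc, h, Iso.hom_inv_id]⟩

end Vale.Agent.P241.H125
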